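import Mathlib

/-!
A weighted linear forest lemma: few columns, many units, large row sums.
-/

namespace Vale.Agent.P048.Close

variable {V ι : Type*}

/-- A labelled path component. -/
abbrev Comp (V ι : Type*) := V × List (ι × V)

namespace Comp

/-- The vertices of a component. -/
def verts (K : Comp V ι) : List V := K.1 :: K.2.map Prod.snd

/-- The labels of a component. -/
def cols (K : Comp V ι) : List ι := K.2.map Prod.fst

/-- The last vertex of a component. -/
def last : V → List (ι × V) → V
  | h, [] => h
  | _, (_, y) :: r => last y r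

/-- The labelled edges of a component. -/
def edgesAux : V → List (ι × V) → List (V × ι × V)
  | _, [] => []
  | h, (c, y) :: r => (h, c, y) :: edgesAux y r

/-- The labelled edges of a component. -/
def edges (K : Comp V ι) : List (V × ι × V) := edgesAux K.1 K.2

/-- The reversed component. -/
def revAux : V → List (ι × V) → Comp V ι
  | h, [] => (h, [])
  | h, (c, y) :: r => ((revAux y r).1, (revAux y r).2 ++ [(c, h)])

/-- The reversed component. -/
def rev (K : Comp V ι) : Comp V ι := revAux K.1 K.2

/-- Join two components by a label. -/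
def join (K : Comp V ι) (c : ι) (L : Comp V ι) : Comp V ι := (K.1, K.2 ++ (c, L.1) :: L.2)

theorem verts_join (K L : Comp V ι) (c : ι) : verts (join K c L) = verts K ++ verts L := by
  simp [verts, join]

theorem cols_join (K L : Comp V ι) (c : ι) : cols (join K c L) = cols K ++ c :: cols L := by
  simp [cols, join]

theorem last_append (h : V) (r : List (ι × V)) (c : ι) (y : V) (r' : List (ι × V)) :
    last h (r ++ (c, y) :: r') = last y r' := by
  induction r generalizing h with
  | nil => rfl
  | cons e r ih => exact ih e.2

theorem edgesAux_append (h : V) (r : List (ι × V)) (c : ι) (y : V) (r' : List (ι × V)) :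
    edgesAux h (r ++ (c, y) :: r') = edgesAux h r ++ (last h r, c, y) :: edgesAux y r' := by
  induction r generalizing h with
  | nil => rfl
  | cons e r ih => simp [edgesAux, ih e.2, last]

theorem edges_join (K L : Comp V ι) (c : ι) :
    edges (join K c L) = edges K ++ (last K.1 K.2, c, L.1) :: edges L :=
  edgesAux_append ..

theorem last_join (K L : Comp V ι) (c : ι) :
    last (join K c L).1 (join K c L).2 = last L.1 L.2 :=
  last_append ..

theorem rev_spec : ∀ (r : List (ι × V)) (h : V),
    (revAux h r).1 = last h r ∧ last (revAux h r).1 (revAux h r).2 = h ∧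
      (verts (revAux h r)).Perm (verts (h, r)) ∧ (cols (revAux h r)).Perm (cols (h, r)) ∧
      (edges (revAux h r)).Perm ((edges (h, r)).map fun e => (e.2.2, e.2.1, e.1))
  | [], h => by simp [revAux, last, verts, cols, edges, edgesAux]
  | (c, y) :: r, h => by
    obtain ⟨h1, h2, h3, h4, h5⟩ := rev_spec r y
    have e : revAux h ((c, y) :: r) = join (revAux y r) c (h, []) := rfl
    rw [e]
    refine ⟨h1, ?_, ?_, ?_, ?_⟩
    · rw [last_join]; rfl
    · rw [verts_join]
      refine List.perm_append_comm.trans ?_
      simpa [verts] using h3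
    · rw [cols_join]
      refine List.perm_append_comm.trans ?_
      simpa [cols] using h4
    · rw [edges_join, h2]
      refine List.perm_append_comm.trans ?_
      simpa [edges, edgesAux] using h5

theorem cols_eq_map_edges : ∀ (r : List (ι × V)) (h : V),
    cols (h, r) = (edges (h, r)).map (fun e => e.2.1)
  | [], _ => rfl
  | (_, y) :: r, _ => by
    have := cols_eq_map_edges r y
    simp only [cols, edges] at this
    simp [cols, edges, edgesAux, this]

theorem exists_split (K : Comp V ι) {e : V × ι × V} (he : e ∈ edges K) :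
    ∃ A B : Comp V ι, K = join A e.2.1 B ∧ last A.1 A.2 = e.1 ∧ B.1 = e.2.2 := by
  obtain ⟨h, r⟩ := K
  induction r generalizing h with
  | nil => simp [edges, edgesAux] at he
  | cons d r ih =>
    obtain ⟨c, y⟩ := d
    simp only [edges, edgesAux, List.mem_cons] at he
    rcases he with rfl | he
    · exact ⟨(h, []), (y, r), rfl, rfl, rfl⟩
    · obtain ⟨A, B, h1, h2, h3⟩ := ih y he
      refine ⟨(h, (c, A.1) :: A.2), B, ?_, h2, h3⟩
      simp only [join, Prod.mk.injEq] at h1 ⊢
      obtain ⟨rfl, rfl⟩ := h1
      simp

theorem edges_infix : ∀ (r : List (ι × V)) (h : V) (e : V × ι × V), e ∈ edges (h, r) →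
    [e.1, e.2.2] <:+: verts (h, r)
  | [], _, _, he => by simp [edges, edgesAux] at he
  | (c, y) :: r, h, e, he => by
    simp only [edges, edgesAux, List.mem_cons] at he
    rcases he with rfl | he
    · exact ⟨[], r.map Prod.snd, by simp [verts]⟩
    · obtain ⟨p, q, hpq⟩ := edges_infix r y e he
      refine ⟨h :: p, q, ?_⟩
      simp only [verts] at hpq ⊢
      simp only [List.cons_append, List.map_cons]
      rw [hpq]

theorem fst_sublist : ∀ (r : List (ι × V)) (h : V),
    ((edges (h, r)).map Prod.fst).Sublist (verts (h, r))
  | [], _ => by simp [edges, edgesAux]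
  | (c, y) :: r, h => by
    have := fst_sublist r y
    simp only [edges, verts] at this
    simpa [edges, edgesAux, verts] using this.cons_cons h

end Comp

open Vale.Agent.P048.Close.Comp

variable (U : Finset V) (P : Finset ι) (d : ι → V → ℕ)

/-- A labelled linear forest on the units `U`. -/
structure IsForest (F : List (Comp V ι)) : Prop where
  verts_perm : (F.flatMap verts).Perm U.toList
  cols_nodup : (F.flatMap cols).Nodup
  cols_mem : ∀ c ∈ F.flatMap cols, c ∈ P
  pos : ∀ e ∈ F.flatMap edges, 0 < d e.2.1 e.1 ∧ 0 < d e.2.1 e.2.2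

/-- Weight of a list of components. -/
def weight (F : List (Comp V ι)) : ℕ :=
  ((F.flatMap edges).map fun e => d e.2.1 e.1 + d e.2.1 e.2.2).sum

theorem weight_append (F G : List (Comp V ι)) : weight d (F ++ G) = weight d F + weight d G := by
  simp [weight]

theorem weight_perm {F G : List (Comp V ι)} (h : F.Perm G) : weight d F = weight d G :=
  ((h.flatMap_right _).map _).sum_eq

theorem weight_single (K : Comp V ι) :
    weight d [K] = ((edges K).map fun e => d e.2.1 e.1 + d e.2.1 e.2.2).sum := by
  simp [weight]

theorem weight_rev (K : Comp V ι) : weight d [rev K] = weight d [K] := by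
  obtain ⟨h, r⟩ := K
  rw [weight_single, weight_single]
  simp only [rev]
  rw [((rev_spec r h).2.2.2.2.map _).sum_eq, List.map_map]
  congr 1
  exact List.map_congr_left fun e _ => by simp [add_comm]

theorem weight_join (K L : Comp V ι) (c : ι) :
    weight d [join K c L] = weight d [K] + weight d [L] + (d c (last K.1 K.2) + d c L.1) := by
  simp only [weight_single, edges_join, List.map_append, List.sum_append, List.map_cons,
    List.sum_cons]
  omega

theorem IsForest.of_perm {F G : List (Comp V ι)} (hF : IsForest U P d F) (h : F.Perm G) :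
    IsForest U P d G :=
  ⟨(h.flatMap_right _).symm.trans hF.verts_perm,
    (h.flatMap_right _).nodup_iff.1 hF.cols_nodup,
    fun c hc => hF.cols_mem c ((h.flatMap_right _).mem_iff.2 hc),
    fun e he => hF.pos e ((h.flatMap_right _).mem_iff.2 he)⟩

/-- `F` has maximum weight. -/
def IsMaxForest (F : List (Comp V ι)) : Prop :=
  IsForest U P d F ∧ ∀ G, IsForest U P d G → weight d G ≤ weight d F

theorem replace_le {F O R N : List (Comp V ι)} (hF : IsMaxForest U P d F)
    (hp : F.Perm (O ++ R)) (hv : (N.flatMap verts).Perm (O.flatMap verts))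
    (hc : (N.flatMap cols).Nodup) (hcR : ∀ c ∈ N.flatMap cols, c ∉ R.flatMap cols ∧ c ∈ P)
    (he : ∀ e ∈ N.flatMap edges, 0 < d e.2.1 e.1 ∧ 0 < d e.2.1 e.2.2) :
    weight d N ≤ weight d O := by
  have hG := hF.1.of_perm U P d hp
  have hN : IsForest U P d (N ++ R) := by
    refine ⟨?_, ?_, ?_, ?_⟩
    · refine List.Perm.trans ?_ hG.verts_perm
      rw [List.flatMap_append, List.flatMap_append]
      exact hv.append_right _
    · rw [List.flatMap_append, List.nodup_append]
      have := hG.cols_nodup
      rw [List.flatMap_append, List.nodup_append] at this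
      exact ⟨hc, this.2.1, fun a ha b hb hab => (hcR a ha).1 (hab ▸ hb)⟩
    · intro c hc'
      rw [List.flatMap_append, List.mem_append] at hc'
      rcases hc' with h | h
      · exact (hcR c h).2
      · exact hG.cols_mem c (by rw [List.flatMap_append, List.mem_append]; exact Or.inr h)
    · intro e he'
      rw [List.flatMap_append, List.mem_append] at he'
      rcases he' with h | h
      · exact he e h
      · exact hG.pos e (by rw [List.flatMap_append, List.mem_append]; exact Or.inr h)
  have := hF.2 _ hN
  rw [weight_perm d hp, weight_append, weight_append] at this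
  omega

theorem rev_lemmas (K : Comp V ι) :
    (rev K).1 = last K.1 K.2 ∧ last (rev K).1 (rev K).2 = K.1 ∧ (verts (rev K)).Perm (verts K) ∧
      (cols (rev K)).Perm (cols K) ∧
      (edges (rev K)).Perm ((edges K).map fun e => (e.2.2, e.2.1, e.1)) :=
  rev_spec K.2 K.1

/-- An orientation of `K`: itself or its reversal. -/
structure Orient (K K' : Comp V ι) : Prop where
  vp : (verts K').Perm (verts K)
  cp : (cols K').Perm (cols K)
  pe : (∀ e ∈ edges K, 0 < d e.2.1 e.1 ∧ 0 < d e.2.1 e.2.2) →
    ∀ e ∈ edges K', 0 < d e.2.1 e.1 ∧ 0 < d e.2.1 e.2.2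
  we : weight d [K'] = weight d [K]

theorem orient_refl (K : Comp V ι) : Orient d K K := ⟨.refl _, .refl _, fun h => h, rfl⟩

theorem orient_rev (K : Comp V ι) : Orient d K (rev K) := by
  obtain ⟨_, _, h3, h4, h5⟩ := rev_lemmas K
  refine ⟨h3, h4, fun h e he => ?_, weight_rev d K⟩
  obtain ⟨e', he', rfl⟩ := List.mem_map.1 (h5.mem_iff.1 he)
  exact (h e' he').symm

theorem add_not_pos {F R : List (Comp V ι)} (hF : IsMaxForest U P d F) {K L K' L' : Comp V ι}
    (hp : F.Perm (K :: L :: R)) {c : ι} (hc : c ∈ P) (hcF : c ∉ F.flatMap cols)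
    (hK : Orient d K K') (hL : Orient d L L') (h1 : 0 < d c (last K'.1 K'.2)) :
    d c L'.1 = 0 := by
  by_contra h2
  have hG := hF.1.of_perm U P d hp
  have hcG : c ∉ (K :: L :: R).flatMap cols := fun h => hcF ((hp.flatMap_right _).mem_iff.2 h)
  simp only [List.flatMap_cons, List.mem_append, not_or] at hcG
  have hnd := hG.cols_nodup
  simp only [List.flatMap_cons, List.nodup_append, List.mem_append] at hnd
  have h := replace_le U P d hF (O := [K, L]) (R := R) (N := [join K' c L'])
    (by simpa using hp)
    (by simpa [verts_join] using hK.vp.append hL.vp) (by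
      simp only [List.flatMap_cons, List.flatMap_nil, List.append_nil, cols_join]
      rw [(hK.cp.append (hL.cp.cons c)).nodup_iff, List.nodup_append]
      refine ⟨hnd.1, List.nodup_cons.2 ⟨hcG.2.1, hnd.2.1.1⟩, fun a ha b hb hab => ?_⟩
      subst hab
      rcases List.mem_cons.1 hb with rfl | hb
      · exact hcG.1 ha
      · exact hnd.2.2 a ha a (Or.inl hb) rfl) (by
      intro a ha
      simp only [List.flatMap_cons, List.flatMap_nil, List.append_nil, cols_join, List.mem_append,
        List.mem_cons] at ha
      rw [hK.cp.mem_iff, hL.cp.mem_iff] at ha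
      rcases ha with ha | rfl | ha
      · exact ⟨fun h => hnd.2.2 a ha a (Or.inr h) rfl, hG.cols_mem a (by simp [ha])⟩
      · exact ⟨hcG.2.2, hc⟩
      · exact ⟨fun h => hnd.2.1.2.2 a ha a h rfl, hG.cols_mem a (by simp [ha])⟩) (by
      intro e he
      simp only [List.flatMap_cons, List.flatMap_nil, List.append_nil, edges_join, List.mem_append,
        List.mem_cons] at he
      rcases he with he | rfl | he
      · exact hK.pe (fun e he => hG.pos e (by simp [he])) e he
      · exact ⟨h1, Nat.pos_of_ne_zero h2⟩
      · exact hL.pe (fun e he => hG.pos e (by simp [he])) e he)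
  rw [weight_join, hK.we, hL.we, show [K, L] = [K] ++ [L] from rfl, weight_append] at h
  omega

theorem exchange_other {F R : List (Comp V ι)} (hF : IsMaxForest U P d F) {K C K' A B : Comp V ι}
    (hp : F.Perm (K :: C :: R)) {c : ι} (hK : Orient d K K') (hC : Orient d C (join A c B)) :
    d c (last K'.1 K'.2) ≤ d c (last A.1 A.2) := by
  by_cases h1 : d c (last K'.1 K'.2) = 0
  · omega
  have hG := hF.1.of_perm U P d hp
  have hnd := hG.cols_nodup
  simp only [List.flatMap_cons, List.nodup_append, List.mem_append] at hnd
  have hposC := hC.pe (fun e he => hG.pos e (by simp [he]))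
  have hposK := hK.pe (fun e he => hG.pos e (by simp [he]))
  have hcperm : (cols (join K' c B) ++ cols A).Perm (cols K ++ cols C) := by
    refine List.Perm.trans ?_ (hK.cp.append hC.cp)
    rw [cols_join, cols_join, List.append_assoc]
    exact (List.perm_append_comm).append_left _
  have h := replace_le U P d hF (O := [K, C]) (R := R) (N := [join K' c B, A])
    (by simpa using hp) (by
      simp only [List.flatMap_cons, List.flatMap_nil, List.append_nil, verts_join]
      refine List.Perm.trans ?_ (hK.vp.append hC.vp)
      rw [verts_join, List.append_assoc]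
      exact List.perm_append_comm.append_left _) (by
      simp only [List.flatMap_cons, List.flatMap_nil, List.append_nil]
      rw [hcperm.nodup_iff, List.nodup_append]
      exact ⟨hnd.1, hnd.2.1.1, fun a ha b hb hab => hnd.2.2 a ha b (Or.inl hb) hab⟩) (by
      intro a ha
      simp only [List.flatMap_cons, List.flatMap_nil, List.append_nil] at ha
      rw [hcperm.mem_iff, List.mem_append] at ha
      rcases ha with ha | ha
      · exact ⟨fun h => hnd.2.2 a ha a (Or.inr h) rfl, hG.cols_mem a (by simp [ha])⟩
      · exact ⟨fun h => hnd.2.1.2.2 a ha a h rfl, hG.cols_mem a (by simp [ha])⟩) (by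
      intro e he
      simp only [List.flatMap_cons, List.flatMap_nil, List.append_nil, edges_join, List.mem_append,
        List.mem_cons] at he
      rcases he with (he | rfl | he) | he
      · exact hposK e he
      · refine ⟨Nat.pos_of_ne_zero h1, ?_⟩
        exact (hposC (last A.1 A.2, c, B.1) (by simp [edges_join])).2
      · exact hposC e (by simp [edges_join, he])
      · exact hposC e (by simp [edges_join, he]))
  rw [show [join K' c B, A] = [join K' c B] ++ [A] from rfl, show [K, C] = [K] ++ [C] from rfl,
    weight_append, weight_append, weight_join, hK.we, ← hC.we, weight_join] at h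
  omega

theorem exchange_same {F R : List (Comp V ι)} (hF : IsMaxForest U P d F) {K A B : Comp V ι}
    (hp : F.Perm (K :: R)) {c : ι} (hK : Orient d K (join A c B)) :
    d c A.1 ≤ d c (last A.1 A.2) := by
  by_cases h1 : d c A.1 = 0
  · omega
  obtain ⟨-, r2, r3, r4, -⟩ := rev_lemmas A
  have hG := hF.1.of_perm U P d hp
  have hnd := hG.cols_nodup
  simp only [List.flatMap_cons, List.nodup_append] at hnd
  have hpos := hK.pe (fun e he => hG.pos e (by simp [he]))
  have hcperm : (cols (join (rev A) c B)).Perm (cols K) := by
    refine List.Perm.trans ?_ hK.cp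
    rw [cols_join, cols_join]
    exact r4.append_right _
  have h := replace_le U P d hF (O := [K]) (R := R) (N := [join (rev A) c B])
    (by simpa using hp) (by
      simp only [List.flatMap_cons, List.flatMap_nil, List.append_nil]
      refine List.Perm.trans ?_ hK.vp
      rw [verts_join, verts_join]
      exact r3.append_right _) (by
      simp only [List.flatMap_cons, List.flatMap_nil, List.append_nil]
      exact hcperm.nodup_iff.2 hnd.1) (by
      intro a ha
      simp only [List.flatMap_cons, List.flatMap_nil, List.append_nil] at ha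
      rw [hcperm.mem_iff] at ha
      exact ⟨fun h => hnd.2.2 a ha a h rfl, hG.cols_mem a (by simp [ha])⟩) (by
      intro e he
      simp only [List.flatMap_cons, List.flatMap_nil, List.append_nil, edges_join, List.mem_append,
        List.mem_cons] at he
      rcases he with he | rfl | he
      · exact (orient_rev d A).pe (fun e he => hpos e (by simp [edges_join, he])) e he
      · refine ⟨by rw [r2]; exact Nat.pos_of_ne_zero h1, ?_⟩
        exact (hpos (last A.1 A.2, c, B.1) (by simp [edges_join])).2
      · exact hpos e (by simp [edges_join, he]))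
  rw [weight_join, r2, weight_rev, ← hK.we, weight_join] at h
  omega

theorem exists_maxForest [DecidableEq V] : ∃ F, IsMaxForest U P d F := by
  classical
  let B := ∑ c ∈ P, 2 * ∑ v ∈ U, d c v
  have hB : ∀ F, IsForest U P d F → weight d F ≤ B := by
    intro F hF
    have hmem : ∀ e ∈ F.flatMap edges, e.1 ∈ U ∧ e.2.2 ∈ U := by
      intro e he
      obtain ⟨⟨h, r⟩, hK, he'⟩ := List.mem_flatMap.1 he
      have := edges_infix r h e he'
      have hv : ∀ x ∈ ([e.1, e.2.2] : List V), x ∈ U := fun x hx =>
        Finset.mem_toList.1 (hF.verts_perm.mem_iff.1 (List.mem_flatMap.2 ⟨_, hK, this.subset hx⟩))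
      exact ⟨hv _ (by simp), hv _ (by simp)⟩
    have hcols : (F.flatMap edges).map (fun e => e.2.1) = F.flatMap cols := by
      rw [List.map_flatMap]
      exact (List.flatMap_congr fun K _ => cols_eq_map_edges K.2 K.1).symm
    calc weight d F ≤ ((F.flatMap edges).map fun e => 2 * ∑ v ∈ U, d e.2.1 v).sum := by
          refine List.sum_le_sum fun e he => ?_
          have h1 := Finset.single_le_sum (f := fun v => d e.2.1 v) (fun _ _ => Nat.zero_le _)
            (hmem e he).1
          have h2 := Finset.single_le_sum (f := fun v => d e.2.1 v) (fun _ _ => Nat.zero_le _)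
            (hmem e he).2
          omega
      _ = ((F.flatMap cols).map fun c => 2 * ∑ v ∈ U, d c v).sum := by
          rw [← hcols, List.map_map]; rfl
      _ = ∑ c ∈ (F.flatMap cols).toFinset, 2 * ∑ v ∈ U, d c v := by
          rw [List.sum_toFinset _ hF.cols_nodup]
      _ ≤ B := Finset.sum_le_sum_of_subset fun c hc => hF.cols_mem c (List.mem_toFinset.1 hc)
  let Q : ℕ → Prop := fun w => ∃ F, IsForest U P d F ∧ weight d F = w
  have h0 : IsForest U P d (U.toList.map fun v => (v, [])) := by
    refine ⟨?_, ?_, ?_, ?_⟩
    · simp [List.flatMap_map, verts]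
    · rw [List.flatMap_eq_nil_iff.2 (by simp [cols])]
      exact List.nodup_nil
    · simp [List.flatMap_map, cols]
    · simp [List.flatMap_map, edges, edgesAux]
  obtain ⟨F, hF, hw⟩ := Nat.findGreatest_spec (P := Q) (hB _ h0) ⟨_, h0, rfl⟩
  exact ⟨F, hF, fun G hG => hw ▸ Nat.le_findGreatest (hB G hG) ⟨G, hG, rfl⟩⟩

theorem flatMap_verts_length (F : List (Comp V ι)) :
    (F.flatMap verts).length = F.length + (F.flatMap cols).length := by
  induction F with
  | nil => rfl
  | cons K F ih =>
    simp only [List.flatMap_cons, List.length_append, List.length_cons, ih, verts, cols,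
      List.length_map]
    omega

/-- The main inequality for a maximum forest. -/
theorem forest_lemma [DecidableEq ι] (hPU : P.card < U.card) {F : List (Comp V ι)}
    (hF : IsMaxForest U P d F) (P0 : Finset ι) (hP0 : P0 ⊆ P) {t : ℕ}
    (hrow : ∀ x ∈ U, t ≤ ∑ c ∈ P0, d c x) :
    2 * t ≤ (((F.flatMap edges).filter (fun e => e.2.1 ∈ P0)).map
      fun e => d e.2.1 e.1 + d e.2.1 e.2.2).sum := by
  classical
  set un := P \ (F.flatMap cols).toFinset with hun
  have hlen : (F.flatMap verts).length = U.card := by rw [hF.1.verts_perm.length_eq]; simp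
  rw [flatMap_verts_length] at hlen
  have hsub : (F.flatMap cols).toFinset ⊆ P := fun c hc => hF.1.cols_mem c (List.mem_toFinset.1 hc)
  have hunc : un.card < F.length := by
    rw [hun, Finset.card_sdiff_of_subset hsub, List.toFinset_card_of_nodup hF.1.cols_nodup]
    have := Finset.card_le_card hsub
    rw [List.toFinset_card_of_nodup hF.1.cols_nodup] at this
    omega
  let touch : ι → Fin F.length → Prop := fun c i => 0 < d c F[i].1 ∨ 0 < d c (last F[i].1 F[i].2)
  have huniq : ∀ c ∈ un, ∀ i j, touch c i → touch c j → i = j := by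
    intro c hc i j hi hj
    by_contra hne
    simp only [hun, Finset.mem_sdiff, List.mem_toFinset] at hc
    have key : ∃ R, F.Perm (F[i] :: F[j] :: R) := by
      have h1 := List.getElem_cons_eraseIdx_perm i.isLt
      have hmem : F[j] ∈ F.eraseIdx i.val :=
        List.mem_eraseIdx_iff_getElem.2 ⟨j.val, j.isLt, fun h => hne (Fin.ext h).symm, rfl⟩
      exact ⟨(F.eraseIdx i.val).erase F[j],
        h1.symm.trans ((List.perm_cons_erase hmem).cons _)⟩
    obtain ⟨R, hR⟩ := key
    have hK : ∀ K : Comp V ι, 0 < d c K.1 ∨ 0 < d c (last K.1 K.2) →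
        ∃ K', Orient d K K' ∧ 0 < d c (last K'.1 K'.2) ∧
          ∃ K'', Orient d K K'' ∧ 0 < d c K''.1 := by
      intro K hK
      obtain ⟨r1, r2, -⟩ := rev_lemmas K
      rcases hK with h | h
      · exact ⟨rev K, orient_rev d K, by rwa [r2], K, orient_refl d K, h⟩
      · exact ⟨K, orient_refl d K, h, rev K, orient_rev d K, by rwa [r1]⟩
    obtain ⟨K', o1, p1, -⟩ := hK _ hi
    obtain ⟨_, -, -, L', o2, p2⟩ := hK _ hj
    have := add_not_pos U P d hF hR hc.1 hc.2 o1 o2 p1
    omega
  obtain ⟨i, hi⟩ : ∃ i, ∀ c ∈ un, ¬ touch c i := by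
    by_contra h
    push Not at h
    choose g hg hg' using h
    have := Finset.card_le_card_of_injOn g (s := Finset.univ) (t := un)
      (fun i _ => hg i) (fun i _ j _ hij => huniq (g i) (hg i) i j (hg' i) (hij ▸ hg' j))
    simp at this
    omega
  set K := F[i] with hKdef
  have hpK : F.Perm (K :: F.eraseIdx i.val) := (List.getElem_cons_eraseIdx_perm i.isLt).symm
  set x := K.1
  set x' := last K.1 K.2
  have hKmem : K ∈ F := List.getElem_mem _
  have hxU : x ∈ U ∧ x' ∈ U := by
    have hv : ∀ y ∈ verts K, y ∈ U := fun y hy =>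
      Finset.mem_toList.1 (hF.1.verts_perm.mem_iff.1 (List.mem_flatMap.2 ⟨K, hKmem, hy⟩))
    obtain ⟨r1, -, r3, -⟩ := rev_lemmas K
    exact ⟨hv _ (List.mem_cons_self ..),
      hv _ (r3.mem_iff.1 (by simp only [x']; rw [← r1]; exact List.mem_cons_self ..))⟩
  have hedge : ∀ e ∈ F.flatMap edges,
      d e.2.1 x + d e.2.1 x' ≤ d e.2.1 e.1 + d e.2.1 e.2.2 := by
    intro e he
    obtain ⟨C, hC, heC⟩ := List.mem_flatMap.1 (((hpK.flatMap_right _).mem_iff).1 he)
    obtain ⟨A, B, hAB, hA, hB⟩ := exists_split C heC
    obtain ⟨r1, r2, -⟩ := rev_lemmas K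
    obtain ⟨b1, b2, b3, b4, b5⟩ := rev_lemmas A
    obtain ⟨c1, c2, c3, c4, c5⟩ := rev_lemmas B
    have horev : Orient d C (join (rev B) e.2.1 (rev A)) := by
      rw [hAB]
      refine ⟨?_, ?_, ?_, ?_⟩
      · rw [verts_join, verts_join]
        exact (c3.append b3).trans List.perm_append_comm
      · rw [cols_join, cols_join]
        refine (c4.append (b4.cons _)).trans ?_
        refine List.perm_middle.trans ?_
        exact (List.perm_append_comm.cons _).trans List.perm_middle.symm
      · intro h e' he'
        simp only [edges_join, List.mem_append, List.mem_cons] at he'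
        rcases he' with he' | rfl | he'
        · exact (orient_rev d B).pe (fun e he => h e (by simp [edges_join, he])) e' he'
        · have := h (last A.1 A.2, e.2.1, B.1) (by simp [edges_join])
          simpa [c2, b1] using this.symm
        · exact (orient_rev d A).pe (fun e he => h e (by simp [edges_join, he])) e' he'
      · rw [weight_join, weight_join, weight_rev, weight_rev, c2, b1]
        omega
    have hofwd : Orient d C (join A e.2.1 B) := hAB ▸ orient_refl d C
    rcases List.mem_cons.1 hC with hCK | hC
    · subst hCK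
      have h1 := exchange_same U P d hF hpK hofwd
      have h2 := exchange_same U P d hF hpK horev
      rw [c2, c1] at h2
      have e1 : x = A.1 := by simp [x, hAB, join]
      have e2 : x' = last B.1 B.2 := by simp only [x']; rw [hAB, last_join]
      rw [hA, ← e1] at h1
      rw [← e2, hB] at h2
      omega
    · have hp2 : F.Perm (K :: C :: (F.eraseIdx i.val).erase C) :=
        hpK.trans ((List.perm_cons_erase hC).cons _)
      have h1 := exchange_other U P d hF hp2 (orient_refl d K) hofwd
      have h2 := exchange_other U P d hF hp2 (orient_refl d K) horev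
      have h3 := exchange_other U P d hF hp2 (orient_rev d K) hofwd
      have h4 := exchange_other U P d hF hp2 (orient_rev d K) horev
      rw [hA] at h1 h3
      rw [c2, hB] at h2 h4
      rw [r2] at h3 h4
      change d e.2.1 x' ≤ _ at h1
      change d e.2.1 x' ≤ _ at h2
      change d e.2.1 x ≤ _ at h3
      change d e.2.1 x ≤ _ at h4
      omega
  set E := (F.flatMap edges).filter (fun e => e.2.1 ∈ P0) with hE
  have hcols : (F.flatMap edges).map (fun e => e.2.1) = F.flatMap cols := by
    rw [List.map_flatMap]
    exact (List.flatMap_congr fun K _ => cols_eq_map_edges K.2 K.1).symm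
  have hEnd : (E.map (fun e => e.2.1)).Nodup := by
    refine List.Nodup.sublist ?_ (hcols ▸ hF.1.cols_nodup)
    exact List.filter_sublist.map _
  have hsum : ∀ y, (y = x ∨ y = x') → ∑ c ∈ P0, d c y = (E.map fun e => d e.2.1 y).sum := by
    intro y hy
    rw [show (E.map fun e => d e.2.1 y) = (E.map fun e => e.2.1).map (fun c => d c y) by
      rw [List.map_map]; rfl]
    rw [← List.sum_toFinset _ hEnd]
    symm
    refine Finset.sum_subset ?_ ?_
    · intro c hc
      simp only [List.mem_toFinset, List.mem_map, hE, List.mem_filter, decide_eq_true_eq] at hc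
      obtain ⟨e, ⟨-, h⟩, rfl⟩ := hc
      exact h
    · intro c hc hnc
      by_contra h0
      by_cases hcu : c ∈ F.flatMap cols
      · rw [← hcols] at hcu
        obtain ⟨e, he, rfl⟩ := List.mem_map.1 hcu
        exact hnc (List.mem_toFinset.2 (List.mem_map.2 ⟨e, by simp [hE, he, hc], rfl⟩))
      · refine hi c (by simp [hun, hP0 hc, hcu]) ?_
        rcases hy with rfl | rfl
        · exact Or.inl (Nat.pos_of_ne_zero h0)
        · exact Or.inr (Nat.pos_of_ne_zero h0)
  have h1 := hrow x hxU.1
  have h2 := hrow x' hxU.2
  rw [hsum x (Or.inl rfl)] at h1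
  rw [hsum x' (Or.inr rfl)] at h2
  have h3 : (E.map fun e => d e.2.1 x + d e.2.1 x').sum ≤
      (E.map fun e => d e.2.1 e.1 + d e.2.1 e.2.2).sum :=
    List.sum_le_sum fun e he => hedge e (List.mem_filter.1 he).1
  rw [List.sum_map_add] at h3
  omega

/-- The order of all units, and the fact that every edge joins consecutive units. -/
theorem IsForest.order {F : List (Comp V ι)} (hF : IsForest U P d F) :
    (F.flatMap verts).Nodup ∧ (∀ x, x ∈ F.flatMap verts ↔ x ∈ U) ∧
      (∀ e ∈ F.flatMap edges, [e.1, e.2.2] <:+: F.flatMap verts) ∧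
      ((F.flatMap edges).map Prod.fst).Nodup := by
  have hn : (F.flatMap verts).Nodup := hF.verts_perm.nodup_iff.2 U.nodup_toList
  refine ⟨hn, fun x => by rw [hF.verts_perm.mem_iff, Finset.mem_toList], fun e he => ?_, ?_⟩
  · obtain ⟨⟨h, r⟩, hK, he'⟩ := List.mem_flatMap.1 he
    refine (edges_infix r h e he').trans ?_
    obtain ⟨s, t, rfl⟩ := List.append_of_mem hK
    exact ⟨s.flatMap verts, t.flatMap verts, by simp⟩
  · refine hn.sublist ?_
    clear hF hn
    induction F with
    | nil => simp
    | cons K F ih =>
      simp only [List.flatMap_cons, List.map_append]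
      exact (Comp.fst_sublist K.2 K.1).append ih

end Vale.Agent.P048.Close
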