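import Vale.Agent.P048.Close.Posa
import Vale.Agent.P048.Close.Forest

/-!
Links outside a cluster: path covers, sub-path gains, shortening.
-/

namespace Vale.Agent.P048.Close

open SimpleGraph

variable {V : Type*} [DecidableEq V] {G : SimpleGraph V} [DecidableRel G.Adj]

/-- A path cover of `W` with at most `n - 1` paths. -/
theorem exists_cover (W : Finset V) {n : ℕ}
    (hα : ∀ I : Finset V, G.IsIndepSet (I : Set V) → I.card < n) :
    ∃ Ps : List (List V), Ps.length < n ∧ (∀ P ∈ Ps, P.Nodup ∧ P.IsChain G.Adj) ∧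
      Ps.flatten.Nodup ∧ ∀ v, v ∈ Ps.flatten ↔ v ∈ W := by
  classical
  let OK : List (List V) → Prop := fun Ps => (∀ P ∈ Ps, P ≠ [] ∧ P.IsChain G.Adj) ∧
    Ps.flatten.Perm W.toList
  have hex : ∃ r, ∃ Ps, OK Ps ∧ Ps.length = r := by
    refine ⟨_, W.toList.map (fun v => [v]), ⟨fun P hP => ?_, ?_⟩, rfl⟩
    · obtain ⟨v, -, rfl⟩ := List.mem_map.1 hP
      simp
    · rw [← List.flatMap_def, List.flatMap_singleton']
  obtain ⟨Ps, hOK, hlen⟩ := Nat.find_spec hex
  have hflat : Ps.flatten.Nodup := hOK.2.nodup_iff.2 W.nodup_toList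
  refine ⟨Ps, ?_, fun P hP => ⟨(List.nodup_flatten.1 hflat).1 P hP, (hOK.1 P hP).2⟩, hflat,
    fun v => by rw [hOK.2.mem_iff, Finset.mem_toList]⟩
  by_contra hge
  push Not at hge
  let g : Fin Ps.length → V := fun i => (Ps[i]).getLast (hOK.1 _ (List.getElem_mem _)).1
  have hpd := (List.nodup_flatten.1 hflat).2
  have hdisj : ∀ i j : Fin Ps.length, i ≠ j → List.Disjoint Ps[i] Ps[j] := by
    intro i j hij
    rcases Nat.lt_or_gt_of_ne (Fin.val_ne_of_ne hij) with h | h
    · exact List.pairwise_iff_getElem.1 hpd _ _ i.isLt j.isLt h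
    · exact (List.pairwise_iff_getElem.1 hpd _ _ j.isLt i.isLt h).symm
  have ginj : Function.Injective g := by
    intro i j h
    by_contra hij
    exact hdisj i j hij (a := g i) (List.getLast_mem _) (by rw [h]; exact List.getLast_mem _)
  have hnind : ¬ G.IsIndepSet ((Finset.univ.image g : Finset V) : Set V) := by
    intro hI
    have := hα _ hI
    rw [Finset.card_image_of_injective _ ginj, Finset.card_univ, Fintype.card_fin] at this
    omega
  simp only [IsIndepSet, Set.Pairwise, Finset.coe_image, Finset.coe_univ, Set.image_univ,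
    Set.mem_range] at hnind
  push Not at hnind
  obtain ⟨_, ⟨i, rfl⟩, _, ⟨j, rfl⟩, hne, hadj⟩ := hnind
  have hij : i ≠ j := fun h => hne (by rw [h])
  have hmem : Ps[j] ∈ Ps.eraseIdx i.val :=
    List.mem_eraseIdx_iff_getElem.2 ⟨j.val, j.isLt, fun h => hij (Fin.ext h).symm, rfl⟩
  have hperm : Ps.Perm (Ps[i] :: Ps[j] :: (Ps.eraseIdx i.val).erase Ps[j]) :=
    (List.getElem_cons_eraseIdx_perm i.isLt).symm.trans ((List.perm_cons_erase hmem).cons _)
  set R := (Ps.eraseIdx i.val).erase Ps[j]
  refine Nat.find_min hex ?_ ⟨(Ps[i] ++ Ps[j].reverse) :: R, ⟨?_, ?_⟩, rfl⟩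
  · have := hperm.length_eq
    simp only [List.length_cons] at this ⊢
    omega
  · intro P hP
    rcases List.mem_cons.1 hP with rfl | hP
    · have hi := hOK.1 _ (List.getElem_mem i.isLt)
      have hj := hOK.1 _ (List.getElem_mem j.isLt)
      refine ⟨by simp only [Fin.getElem_fin]; simp [hi.1], ?_⟩
      rw [List.isChain_append]
      refine ⟨hi.2, ?_, ?_⟩
      · rw [List.isChain_reverse]
        exact hj.2.imp fun a b h => h.symm
      · intro a ha b hb
        simp only [Fin.getElem_fin] at ha hb
        rw [List.getLast?_eq_some_getLast hi.1] at ha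
        rw [List.head?_reverse, List.getLast?_eq_some_getLast hj.1] at hb
        simp only [Option.mem_def, Option.some.injEq] at ha hb
        subst ha hb
        exact hadj
    · exact hOK.1 P (hperm.mem_iff.2 (by simp [hP]))
  · refine List.Perm.trans ?_ ((hperm.flatten).symm.trans hOK.2)
    simp only [List.flatten_cons, List.append_assoc]
    exact ((List.reverse_perm _).append_right _).append_left _

/-- Number of neighbours of `x` on the list `P`. -/
def cnt (G : SimpleGraph V) [DecidableRel G.Adj] (P : List V) (x : V) : ℕ :=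
  (P.filter (fun v => decide (G.Adj x v))).length

theorem cnt_eq (P : List V) (x : V) :
    cnt G P x = ((Finset.univ : Finset (Fin P.length)).filter
      (fun i => G.Adj x P[i.val])).card := by
  rw [Finset.card_filter, Fin.sum_univ_fun_getElem P (fun v => if G.Adj x v then 1 else 0)]
  induction P with
  | nil => simp [cnt]
  | cons a P ih =>
    simp only [cnt, List.map_cons, List.sum_cons, List.filter_cons] at ih ⊢
    rw [← ih]
    split_ifs <;> simp_all <;> omega

/-- A sub-list between positions `i ≤ j`. -/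
theorem exists_sub {P : List V} (hP : P.Nodup) (hc : P.IsChain G.Adj) {i j : ℕ} (hij : i ≤ j)
    (hj : j < P.length) {x y : V} (hx : G.Adj x (P[i]'(by omega))) (hy : G.Adj y P[j]) :
    ∃ Q : List V, Q.length = j - i + 1 ∧ Q.Nodup ∧ (∀ v ∈ Q, v ∈ P) ∧
      (x :: (Q ++ [y])).IsChain G.Adj := by
  refine ⟨(P.drop i).take (j - i + 1), by simp; omega,
    hP.sublist ((List.take_sublist _ _).trans (List.drop_sublist _ _)),
    fun v hv => List.mem_of_mem_drop (List.mem_of_mem_take hv), ?_⟩
  rw [← List.cons_append, List.isChain_append, List.isChain_cons]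
  refine ⟨⟨?_, (hc.drop i).take _⟩, List.isChain_singleton _, ?_⟩
  · intro w hw
    rw [List.head?_take, if_neg (by omega), List.head?_drop, List.getElem?_eq_getElem (by omega)]
      at hw
    simp only [Option.mem_def, Option.some.injEq] at hw
    exact hw ▸ hx
  · intro w hw u hu
    simp only [List.head?_cons, Option.mem_def, Option.some.injEq] at hu
    subst hu
    have hne : ((P.drop i).take (j - i + 1)) ≠ [] := by
      intro h; have := congrArg List.length h; simp at this; omega
    rw [List.getLast?_cons, List.getLast?_eq_some_getLast hne] at hw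
    simp only [Option.getD_some, Option.mem_def, Option.some.injEq] at hw
    subst hw
    rw [List.getLast_eq_getElem]
    simp only [List.getElem_take, List.getElem_drop, List.length_take, List.length_drop]
    have : i + (min (j - i + 1) (P.length - i) - 1) = j := by omega
    simp only [this]
    exact hy.symm

/-- The best sub-path between neighbours of `x` and of `y`. -/
theorem exists_gain {P : List V} (hP : P.Nodup) (hc : P.IsChain G.Adj) {x y : V}
    (hx : 0 < cnt G P x) (hy : 0 < cnt G P y) :
    ∃ Q : List V, 1 ≤ Q.length ∧ Q.Nodup ∧ (∀ v ∈ Q, v ∈ P) ∧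
      (x :: (Q ++ [y])).IsChain G.Adj ∧ cnt G P x + cnt G P y ≤ 2 * Q.length ∧
      (Q.length = 2 → cnt G P x + cnt G P y ≤ 3 ∨ ∃ z ∈ P, G.Adj x z ∧ G.Adj y z) := by
  classical
  rw [cnt_eq] at hx hy
  simp only [cnt_eq]
  set A := (Finset.univ : Finset (Fin P.length)).filter (fun i => G.Adj x P[i.val]) with hA
  set B := (Finset.univ : Finset (Fin P.length)).filter (fun i => G.Adj y P[i.val]) with hB
  have hAne := Finset.card_pos.1 hx
  have hBne := Finset.card_pos.1 hy
  set a0 := A.min' hAne
  set a1 := A.max' hAne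
  set b0 := B.min' hBne
  set b1 := B.max' hBne
  have hA' : ∀ {i}, i ∈ A → G.Adj x P[i.val] := fun h => (Finset.mem_filter.1 h).2
  have hB' : ∀ {i}, i ∈ B → G.Adj y P[i.val] := fun h => (Finset.mem_filter.1 h).2
  have span : ∀ (S : Finset (Fin P.length)) (h : S.Nonempty),
      S.card + (S.min' h).val ≤ (S.max' h).val + 1 := by
    intro S h
    have : S.image Fin.val ⊆ Finset.Icc (S.min' h).val (S.max' h).val := by
      intro v hv
      obtain ⟨i, hi, rfl⟩ := Finset.mem_image.1 hv
      exact Finset.mem_Icc.2 ⟨S.min'_le i hi, S.le_max' i hi⟩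
    have := Finset.card_le_card this
    rw [Finset.card_image_of_injective _ Fin.val_injective, Nat.card_Icc] at this
    have : (S.min' h).val ≤ (S.max' h).val := S.min'_le_max' h
    omega
  have sA : A.card + a0.val ≤ a1.val + 1 := span A hAne
  have sB : B.card + b0.val ≤ b1.val + 1 := span B hBne
  have extra : ∀ len : ℕ, (a0.val + len ≥ b1.val + 1 ∧ b0.val + len ≥ a1.val + 1) → len ≤ 2 →
      A.card + B.card ≤ 3 ∨ ∃ z ∈ P, G.Adj x z ∧ G.Adj y z := by
    intro len hlen hle
    by_cases hcom : ∃ i, i ∈ A ∧ i ∈ B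
    · obtain ⟨i, hiA, hiB⟩ := hcom
      exact Or.inr ⟨_, List.getElem_mem _, hA' hiA, hB' hiB⟩
    · left
      push Not at hcom
      have hd : Disjoint A B := Finset.disjoint_left.2 hcom
      have hbound : (A ∪ B).image Fin.val ⊆ Finset.Icc (min a0.val b0.val) (max a1.val b1.val) := by
        intro v hv
        obtain ⟨i, hi, rfl⟩ := Finset.mem_image.1 hv
        rw [Finset.mem_Icc]
        rcases Finset.mem_union.1 hi with h | h
        · have : a0.val ≤ i.val := A.min'_le i h
          have : i.val ≤ a1.val := A.le_max' i h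
          omega
        · have : b0.val ≤ i.val := B.min'_le i h
          have : i.val ≤ b1.val := B.le_max' i h
          omega
      have := Finset.card_le_card hbound
      rw [Finset.card_image_of_injective _ Fin.val_injective, Finset.card_union_of_disjoint hd,
        Nat.card_Icc] at this
      have h1 : a0.val ≤ a1.val := A.min'_le_max' hAne
      have h2 : b0.val ≤ b1.val := B.min'_le_max' hBne
      omega
  by_cases h : a1.val + a0.val ≤ b1.val + b0.val
  · obtain ⟨Q, q1, q2, q3, q4⟩ := exists_sub hP hc (show a0.val ≤ b1.val by omega) b1.isLt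
      (hA' (A.min'_mem hAne)) (hB' (B.max'_mem hBne))
    exact ⟨Q, by omega, q2, q3, q4, by omega, fun h2 => extra Q.length (by omega) h2.le⟩
  · obtain ⟨Q, q1, q2, q3, q4⟩ := exists_sub hP hc (show b0.val ≤ a1.val by omega) a1.isLt
      (hB' (B.min'_mem hBne)) (hA' (A.max'_mem hAne))
    refine ⟨Q.reverse, by simp; omega, List.nodup_reverse.2 q2, fun v hv => q3 v (by simpa using hv),
      ?_, by simp; omega, fun h2 => extra Q.length (by omega) (by simp at h2; omega)⟩
    have := (List.isChain_reverse.2 (q4.imp fun a b hab => hab.symm) :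
      (y :: (Q ++ [x])).reverse.IsChain G.Adj)
    simpa using this

/-- An admissible pair of attachments. -/
def OKPair (a b u u' : V) : Prop := u ≠ u' ∧ s(u, u') ≠ s(a, b)

/-- Shortening of a link, keeping admissible ends. -/
theorem shrink (D : Finset V) (a b : V) {t : ℕ} (ht : 1 ≤ t) :
    ∀ (Q : List V) (x y : V), t ≤ Q.length → Q.Nodup → x ∈ D → y ∈ D → OKPair a b x y →
      (x :: (Q ++ [y])).IsChain G.Adj → (∀ w ∈ Q, ∃ u ∈ D, G.Adj w u) →
      ∃ (Q' : List V) (x' y' : V), (t ≤ Q'.length ∧ Q'.length ≤ t + 1) ∧ Q'.Nodup ∧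
        (∀ v ∈ Q', v ∈ Q) ∧ x' ∈ D ∧ y' ∈ D ∧ OKPair a b x' y' ∧
        (x' :: (Q' ++ [y'])).IsChain G.Adj := by
  intro Q
  induction hL : Q.length using Nat.strong_induction_on generalizing Q with
  | _ L ih =>
    intro x y htL hn hx hy hok hc hN
    subst hL
    by_cases hsmall : Q.length ≤ t + 1
    · exact ⟨Q, x, y, ⟨htL, hsmall⟩, hn, fun _ h => h, hx, hy, hok, hc⟩
    obtain ⟨w, R, rfl⟩ : ∃ w R, Q = w :: R := by
      cases Q with
      | nil => simp at hsmall
      | cons w R => exact ⟨w, R, rfl⟩
    obtain ⟨S, r, rfl⟩ : ∃ S r, R = S ++ [r] := by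
      rcases List.eq_nil_or_concat R with h | ⟨S, r, h⟩
      · subst h; simp at hsmall
      · exact ⟨S, r, by simpa using h⟩
    simp only [List.length_cons, List.length_append, List.length_nil] at hsmall htL
    have hSne : S ≠ [] := by rintro rfl; simp at hsmall; omega
    set p := S.head hSne
    set q := S.getLast hSne
    obtain ⟨u, hu, hpu⟩ := hN p (by simp [p, List.head_mem])
    obtain ⟨u', hu', hqu⟩ := hN q (by simp [q, List.getLast_mem])
    simp only [List.cons_append, List.isChain_cons_cons, List.append_assoc, List.nil_append] at hc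
    obtain ⟨hxw, hwS⟩ := hc
    rw [List.isChain_cons] at hwS
    obtain ⟨hwp, hS⟩ := hwS
    rw [List.isChain_append] at hS
    obtain ⟨hSc, hry, hSr⟩ := hS
    simp only [List.isChain_cons_cons] at hry
    have hup : ∀ T : List V, ((S ++ T).IsChain G.Adj) → (u :: (S ++ T)).IsChain G.Adj := by
      intro T hT
      rw [List.isChain_cons]
      refine ⟨fun z hz => ?_, hT⟩
      rw [List.head?_append_of_ne_nil _ hSne, List.head?_eq_some_head hSne] at hz
      simp at hz; subst hz
      exact hpu.symm
    have hqc : (S ++ [u']).IsChain G.Adj := by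
      rw [List.isChain_append]
      refine ⟨hSc, List.isChain_singleton _, fun z hz z' hz' => ?_⟩
      rw [List.getLast?_eq_some_getLast hSne] at hz
      simp at hz hz'; subst hz hz'
      exact hqu
    have hdone : ∀ (Q' : List V) (x' y' : V), Q'.length < (w :: (S ++ [r])).length →
        t ≤ Q'.length → Q'.Sublist (w :: (S ++ [r])) → x' ∈ D → y' ∈ D → OKPair a b x' y' →
        (x' :: (Q' ++ [y'])).IsChain G.Adj →
        ∃ (Q'' : List V) (x'' y'' : V), (t ≤ Q''.length ∧ Q''.length ≤ t + 1) ∧ Q''.Nodup ∧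
          (∀ v ∈ Q'', v ∈ w :: (S ++ [r])) ∧ x'' ∈ D ∧ y'' ∈ D ∧ OKPair a b x'' y'' ∧
          (x'' :: (Q'' ++ [y''])).IsChain G.Adj := by
      intro Q' x' y' h1 h2 h3 h4 h5 h6 h7
      obtain ⟨Q'', x'', y'', r1, r2, r3, r4⟩ := ih _ h1 Q' rfl x' y' h2 (hn.sublist h3) h4 h5 h6 h7
        (fun v hv => hN v (h3.subset hv))
      exact ⟨Q'', x'', y'', r1, r2, fun v hv => h3.subset (r3 v hv), r4⟩
    by_cases h1 : OKPair a b u y
    · refine hdone (S ++ [r]) u y (by simp) (by simp; omega) (List.sublist_cons_self _ _) hu hy h1 ?_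
      rw [List.append_assoc, List.singleton_append]
      exact hup _ (List.isChain_append.2 ⟨hSc, List.isChain_cons_cons.2 hry, hSr⟩)
    by_cases h2 : OKPair a b x u'
    · refine hdone (w :: S) x u' (by simp) (by simp; omega)
        ((List.sublist_append_left S [r]).cons_cons w) hx hu' h2 ?_
      rw [List.cons_append, List.isChain_cons_cons, List.isChain_cons]
      refine ⟨hxw, fun z hz => ?_, hqc⟩
      apply hwp
      rw [List.head?_append_of_ne_nil _ hSne] at hz ⊢
      exact hz
    refine hdone S u u' (by simp) (by omega)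
      ((List.sublist_append_left S [r]).trans (List.sublist_cons_self _ _)) hu hu' ?_
      (hup _ hqc)
    simp only [OKPair, ne_eq, Sym2.eq_iff] at h1 h2 hok ⊢
    grind

end Vale.Agent.P048.Close
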