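import Mathlib

/-!
Paths and cycles given by lists or index functions.
-/

namespace Vale.Agent.P048.Close

open SimpleGraph

variable {V : Type*}

/-- A cyclically closed chain. -/
def Closed (R : V → V → Prop) (l : List V) : Prop :=
  l.IsChain R ∧ ∀ a ∈ l.getLast?, ∀ b ∈ l.head?, R a b

/-- A cycle of length `m`, as a list of vertices. -/
def HasCycle (G : SimpleGraph V) (m : ℕ) : Prop :=
  ∃ l : List V, l.length = m ∧ l.Nodup ∧ Closed G.Adj l

/-- A path with `k` edges, as an index function. -/
def IsPathFn (G : SimpleGraph V) (f : ℕ → V) (k : ℕ) : Prop :=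
  (∀ i < k, G.Adj (f i) (f (i + 1))) ∧ Set.InjOn f (Set.Iic k)

theorem Closed.append_comm {R : V → V → Prop} {a b : List V} (h : Closed R (a ++ b)) :
    Closed R (b ++ a) := by
  rcases eq_or_ne a [] with rfl | ha
  · simpa using h
  rcases eq_or_ne b [] with rfl | hb
  · simpa using h
  obtain ⟨h1, h2⟩ := h
  rw [List.isChain_append] at h1
  obtain ⟨p1, p2, p3⟩ := h1
  rw [List.getLast?_append_of_ne_nil _ hb, List.head?_append_of_ne_nil _ ha] at h2
  refine ⟨List.isChain_append.2 ⟨p2, p1, h2⟩, ?_⟩
  rw [List.getLast?_append_of_ne_nil _ ha, List.head?_append_of_ne_nil _ hb]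
  exact p3

theorem Closed.rotate {R : V → V → Prop} {l : List V} (h : Closed R l) (k : ℕ) :
    Closed R (l.rotate k) := by
  rw [List.rotate_eq_drop_append_take_mod]
  exact Closed.append_comm (by rwa [List.take_append_drop])

theorem Closed.imp {R S : V → V → Prop} {l : List V} (h : Closed R l)
    (hRS : ∀ a b, R a b → S a b) : Closed S l :=
  ⟨h.1.imp hRS, fun a ha b hb => hRS _ _ (h.2 a ha b hb)⟩

theorem Closed.rel_getElem {R : V → V → Prop} {l : List V} (h : Closed R l) (i : ℕ)
    (hi : i < l.length) :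
    R l[i] (l[(i + 1) % l.length]'(Nat.mod_lt _ (by omega))) := by
  by_cases h1 : i + 1 < l.length
  · simp only [Nat.mod_eq_of_lt h1]
    exact List.isChain_iff_getElem.1 h.1 i h1
  · have h2 : i + 1 = l.length := by omega
    simp only [h2, Nat.mod_self]
    refine h.2 _ ?_ _ ?_
    · rw [List.getLast?_eq_getElem?, List.getElem?_eq_getElem (by omega)]
      simp only [Option.mem_def, Option.some.injEq]
      congr 1
      omega
    · rw [List.head?_eq_getElem?, List.getElem?_eq_getElem (by omega)]
      simp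

theorem closed_ofFn {R : V → V → Prop} {n : ℕ} (f : ℕ → V)
    (h : ∀ i, i + 1 < n → R (f i) (f (i + 1))) (h0 : 0 < n → R (f (n - 1)) (f 0)) :
    Closed R ((List.range n).map f) := by
  constructor
  · rw [List.isChain_iff_getElem]
    intro i hi
    simp at hi
    simpa using h i hi
  · intro a ha b hb
    rw [List.getLast?_eq_getElem?] at ha
    rw [List.head?_eq_getElem?] at hb
    rcases Nat.eq_zero_or_pos n with rfl | hn
    · simp at hb
    simp [List.getElem?_map, List.getElem?_range hn] at hb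
    simp [List.getElem?_map, List.getElem?_range (show n - 1 < n by omega)] at ha
    subst ha hb
    exact h0 hn

theorem hasCycle_of_fn {G : SimpleGraph V} {m : ℕ} (f : ℕ → V)
    (h : ∀ i, i + 1 < m → G.Adj (f i) (f (i + 1))) (h0 : 0 < m → G.Adj (f (m - 1)) (f 0))
    (hinj : Set.InjOn f (Set.Iio m)) : HasCycle G m := by
  refine ⟨(List.range m).map f, by simp, ?_, closed_ofFn f h h0⟩
  exact List.nodup_range.map_on fun a ha b hb hab => hinj (by simpa using ha) (by simpa using hb) hab

theorem isPathFn_of_list {G : SimpleGraph V} {l : List V} (hn : l.Nodup)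
    (hc : l.IsChain G.Adj) (hl : 0 < l.length) :
    ∃ f : ℕ → V, IsPathFn G f (l.length - 1) ∧ ∀ i (hi : i < l.length), f i = l[i] := by
  refine ⟨fun i => l.getD i (l[0]'hl), ⟨?_, ?_⟩, fun i hi => by simp [hi]⟩
  · intro i hi
    simp only [List.getD_eq_getElem?_getD, List.getElem?_eq_getElem (show i < l.length by omega),
      List.getElem?_eq_getElem (show i + 1 < l.length by omega), Option.getD_some]
    exact List.isChain_iff_getElem.1 hc i (by omega)
  · intro i hi j hj hij
    simp only [Set.mem_Iic] at hi hj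
    simp only [List.getD_eq_getElem?_getD, List.getElem?_eq_getElem (show i < l.length by omega),
      List.getElem?_eq_getElem (show j < l.length by omega), Option.getD_some] at hij
    exact (hn.getElem_inj_iff).1 hij

/-- The periodic integer parametrisation of a cycle. -/
theorem exists_param {G : SimpleGraph V} {l : List V} (hn : l.Nodup) (hc : Closed G.Adj l)
    (hl : 0 < l.length) :
    ∃ x : ℤ → V, (∀ i, G.Adj (x i) (x (i + 1))) ∧
      (∀ i j, x i = x j ↔ (l.length : ℤ) ∣ i - j) ∧ (∀ i, x i ∈ l) ∧ ∀ v ∈ l, ∃ i, x i = v := by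
  have hlt : ∀ i : ℤ, (i % (l.length : ℤ)).toNat < l.length := fun i => by
    have := Int.emod_lt_of_pos i (by exact_mod_cast hl : (0 : ℤ) < l.length)
    omega
  have hnn : ∀ i : ℤ, 0 ≤ i % (l.length : ℤ) := fun i => Int.emod_nonneg _ (by omega)
  refine ⟨fun i => l[(i % (l.length : ℤ)).toNat]'(hlt i), fun i => ?_, fun i j => ?_,
    fun i => List.getElem_mem _, fun v hv => ?_⟩
  · have h := hc.rel_getElem _ (hlt i)
    have e : ((i % (l.length : ℤ)).toNat + 1) % l.length = ((i + 1) % (l.length : ℤ)).toNat := by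
      apply Int.ofNat_inj.1
      push_cast
      rw [Int.toNat_of_nonneg (hnn i), Int.toNat_of_nonneg (hnn (i + 1)), Int.emod_add_emod]
    simpa [e] using h
  · rw [hn.getElem_inj_iff]
    constructor
    · intro h
      have := hnn i
      have := hnn j
      exact Int.dvd_of_emod_eq_zero
        (Int.emod_eq_emod_iff_emod_sub_eq_zero.1 (by omega))
    · intro h
      rw [Int.emod_eq_emod_iff_emod_sub_eq_zero.2 (Int.emod_eq_zero_of_dvd h)]
  · obtain ⟨k, hk, rfl⟩ := List.getElem_of_mem hv
    refine ⟨k, ?_⟩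
    have : (((k : ℤ) % (l.length : ℤ)).toNat) = k := by
      rw [Int.emod_eq_of_lt (by omega) (by omega)]
      simp
    simp only [this]

theorem HasCycle.isContained {G : SimpleGraph V} {m : ℕ} (hm : 3 ≤ m) (h : HasCycle G m) :
    cycleGraph m ⊑ G := by
  obtain ⟨l, rfl, hn, hc⟩ := h
  obtain ⟨k, hk⟩ : ∃ k, l.length = k + 2 := ⟨l.length - 2, by omega⟩
  rw [hk]
  have key : ∀ a b : Fin (k + 2), b - a = 1 →
      G.Adj (l[a.val]'(by omega)) (l[b.val]'(by omega)) := by
    intro a b hab
    have hb : b = a + 1 := by rw [← hab]; simp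
    have h := hc.rel_getElem a.val (by omega)
    have e : (a.val + 1) % l.length = b.val := by
      rw [hb, Fin.val_add, Fin.val_one, hk]
    simpa [e] using h
  refine ⟨⟨⟨fun a => l[a.val]'(by omega), ?_⟩, ?_⟩⟩
  · intro a b hab
    rcases (cycleGraph_adj.1 hab) with h1 | h1
    · exact (key b a h1).symm
    · exact key a b h1
  · intro a b hab
    exact Fin.ext ((hn.getElem_inj_iff).1 hab)

theorem HasCycle.map {W : Type*} {G : SimpleGraph V} {H : SimpleGraph W} {m : ℕ}
    (f : H →g G) (hf : Function.Injective f) (h : HasCycle H m) : HasCycle G m := by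
  obtain ⟨l, hl, hn, hc⟩ := h
  refine ⟨l.map f, by simpa using hl, hn.map hf, ?_, ?_⟩
  · rw [List.isChain_map]
    exact hc.1.imp fun a b hab => f.map_adj hab
  · intro a ha b hb
    rw [List.getLast?_map] at ha
    rw [List.head?_map] at hb
    simp only [Option.mem_def, Option.map_eq_some_iff] at ha hb
    obtain ⟨a', ha', rfl⟩ := ha
    obtain ⟨b', hb', rfl⟩ := hb
    exact f.map_adj (hc.2 a' ha' b' hb')

theorem IsPathFn.map {W : Type*} {G : SimpleGraph V} {H : SimpleGraph W} {k : ℕ} {p : ℕ → W}
    (f : H →g G) (hf : Function.Injective f) (h : IsPathFn H p k) : IsPathFn G (f ∘ p) k :=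
  ⟨fun i hi => f.map_adj (h.1 i hi), fun i hi j hj hij => h.2 hi hj (hf hij)⟩

theorem IsPathFn.mono {G : SimpleGraph V} {k k' : ℕ} {p : ℕ → V} (h : IsPathFn G p k)
    (hk : k' ≤ k) : IsPathFn G p k' :=
  ⟨fun i hi => h.1 i (by omega), h.2.mono (Set.Iic_subset_Iic.2 hk)⟩

theorem IsPathFn.shift {G : SimpleGraph V} {k : ℕ} {p : ℕ → V} (h : IsPathFn G p k)
    (j k' : ℕ) (hk : j + k' ≤ k) : IsPathFn G (fun i => p (j + i)) k' := by
  refine ⟨fun i hi => ?_, fun a ha b hb hab => ?_⟩
  · simpa [add_assoc] using h.1 (j + i) (by omega)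
  · simp only [Set.mem_Iic] at ha hb
    have := h.2 (show j + a ∈ Set.Iic k by simp; omega) (show j + b ∈ Set.Iic k by simp; omega) hab
    omega

end Vale.Agent.P048.Close
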