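import Vale.Agent.P048.Close.Links

/-!
The closing step: a small dense cluster gives a cycle of the exact length.
-/

namespace Vale.Agent.P048.Close

open SimpleGraph Finset

variable {V : Type*} [DecidableEq V] {G : SimpleGraph V} [DecidableRel G.Adj]

/-- Among `n` vertices of a small set, two have a common neighbour outside. -/
def F2 (G : SimpleGraph V) (m n : ℕ) : Prop :=
  ∀ Z : Finset V, #Z + 1 ≤ m → ∀ U ⊆ Z, #U = n →
    ∃ x ∈ U, ∃ y ∈ U, x ≠ y ∧ ∃ w, w ∉ Z ∧ G.Adj x w ∧ G.Adj y w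

theorem card_ends_le (J : Finset (Link V)) : #(ends J) ≤ 2 * #J := by
  refine (Finset.card_union_le _ _).trans ?_
  have := Finset.card_image_le (f := Link.x) (s := J)
  have := Finset.card_image_le (f := Link.y) (s := J)
  omega

theorem LinkSys.ends_subset {D : Finset V} {σ : List V} {J : Finset (Link V)}
    (h : LinkSys G D σ J) : ends J ⊆ D := by
  intro v hv
  rw [← h.σ_mem]
  simp only [ends, Finset.mem_union, Finset.mem_image] at hv
  rcases hv with ⟨e, he, rfl⟩ | ⟨e, he, rfl⟩ <;> exact (h.infix_ e he).subset (by simp)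

theorem LinkSys.x_ne_y {D : Finset V} {σ : List V} {J : Finset (Link V)}
    (h : LinkSys G D σ J) {e : Link V} (he : e ∈ J) : e.x ≠ e.y := by
  intro hxy
  have := (h.infix_ e he).sublist.nodup h.σ_nodup
  simp [hxy] at this

theorem LinkSys.pair_inj {D : Finset V} {σ : List V} {J : Finset (Link V)}
    (h : LinkSys G D σ J) {e e' : Link V} (he : e ∈ J) (he' : e' ∈ J)
    (hp : s(e.x, e.y) = s(e'.x, e'.y)) : e = e' := by
  rw [Sym2.eq_iff] at hp
  rcases hp with ⟨h1, -⟩ | ⟨h1, h2⟩
  · exact h.x_inj e he e' he' h1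
  · obtain ⟨i, hi, a1, a2⟩ := succ_of_infix (h.infix_ e he)
    obtain ⟨j, hj, b1, b2⟩ := succ_of_infix (h.infix_ e' he')
    have := h.σ_nodup.getElem_inj_iff.1 (a1.trans (h1.trans b2.symm))
    have := h.σ_nodup.getElem_inj_iff.1 (a2.trans (h2.trans b1.symm))
    omega

theorem LinkSys.replace {D : Finset V} {σ : List V} {J : Finset (Link V)}
    (h : LinkSys G D σ J) {e : Link V} (he : e ∈ J) {z : V} (hz : z ∉ D) (hx : G.Adj e.x z)
    (hy : G.Adj e.y z) (hother : ∀ e' ∈ J, e' ≠ e → z ∉ e'.M) :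
    LinkSys G D σ (insert (⟨e.x, e.y, [z]⟩ : Link V) (J.erase e)) := by
  refine ⟨h.σ_nodup, h.σ_mem, ?_, ?_, ?_, ?_, ?_, ?_⟩
  · intro f hf
    rcases Finset.mem_insert.1 hf with rfl | hf
    · exact h.infix_ e he
    · exact h.infix_ f (Finset.mem_of_mem_erase hf)
  · intro f hf f' hf' hxx
    rcases Finset.mem_insert.1 hf with rfl | hf <;> rcases Finset.mem_insert.1 hf' with rfl | hf'
    · rfl
    · exact absurd (h.x_inj e he f' (Finset.mem_of_mem_erase hf') hxx)
        (Finset.ne_of_mem_erase hf').symm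
    · exact absurd (h.x_inj f (Finset.mem_of_mem_erase hf) e he hxx) (Finset.ne_of_mem_erase hf)
    · exact h.x_inj f (Finset.mem_of_mem_erase hf) f' (Finset.mem_of_mem_erase hf') hxx
  · intro f hf
    rcases Finset.mem_insert.1 hf with rfl | hf
    · simp [hx, hy.symm]
    · exact h.chain f (Finset.mem_of_mem_erase hf)
  · intro f hf
    rcases Finset.mem_insert.1 hf with rfl | hf
    · simp
    · exact h.nodup f (Finset.mem_of_mem_erase hf)
  · intro f hf w hw
    rcases Finset.mem_insert.1 hf with rfl | hf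
    · simp at hw; exact hw ▸ hz
    · exact h.off f (Finset.mem_of_mem_erase hf) w hw
  · intro f hf f' hf' hne w hw hw'
    rcases Finset.mem_insert.1 hf with rfl | hf <;> rcases Finset.mem_insert.1 hf' with rfl | hf'
    · exact hne rfl
    · simp at hw
      rw [hw] at hw'
      exact hother f' (Finset.mem_of_mem_erase hf') (Finset.ne_of_mem_erase hf') hw'
    · simp at hw'
      rw [hw'] at hw
      exact hother f (Finset.mem_of_mem_erase hf) (Finset.ne_of_mem_erase hf) hw
    · exact h.disj f (Finset.mem_of_mem_erase hf) f' (Finset.mem_of_mem_erase hf') hne w hw hw'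

theorem linkSys_of_pre {D : Finset V} {pre : List V} (hn : pre.Nodup) (hsub : ∀ v ∈ pre, v ∈ D)
    {J : Finset (Link V)} (hinf : ∀ e ∈ J, [e.x, e.y] <:+: pre)
    (hxi : ∀ e ∈ J, ∀ e' ∈ J, e.x = e'.x → e = e')
    (hc : ∀ e ∈ J, (e.x :: (e.M ++ [e.y])).IsChain G.Adj) (hnd : ∀ e ∈ J, e.M.Nodup)
    (hoff : ∀ e ∈ J, ∀ w ∈ e.M, w ∉ D)
    (hdis : ∀ e ∈ J, ∀ e' ∈ J, e ≠ e' → ∀ w ∈ e.M, w ∉ e'.M) :
    ∃ σ, LinkSys G D σ J := by
  refine ⟨pre ++ (D \ pre.toFinset).toList, ?_, fun v => ?_,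
    fun e he => (hinf e he).trans (List.infix_append_of_infix_left (List.infix_refl _)), hxi, hc,
    hnd, hoff, hdis⟩
  · rw [List.nodup_append]
    refine ⟨hn, Finset.nodup_toList _, fun a ha b hb hab => ?_⟩
    simp [← hab, ha] at hb
  · simp only [List.mem_append, Finset.mem_toList, Finset.mem_sdiff, List.mem_toFinset]
    constructor
    · rintro (h | h)
      · exact hsub v h
      · exact h.1
    · intro h
      tauto

theorem chain_flip {x y : V} {M : List V} (h : (x :: (M ++ [y])).IsChain G.Adj) :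
    (y :: (M.reverse ++ [x])).IsChain G.Adj := by
  have := (List.isChain_reverse.2 (h.imp fun a b hab => hab.symm) :
    (x :: (M ++ [y])).reverse.IsChain G.Adj)
  simpa using this

theorem pair_sys {D : Finset V} {a b x y : V} (ha : a ∈ D) (hb : b ∈ D) (hab : a ≠ b)
    (hx : x ∈ D) (hy : y ∈ D) (hok : OKPair a b x y) {X Q : List V} (hX : X.Nodup) (hQ : Q.Nodup)
    (hXD : ∀ w ∈ X, w ∉ D) (hQD : ∀ w ∈ Q, w ∉ D) (hXQ : ∀ w ∈ X, w ∉ Q)
    (hcX : (a :: (X ++ [b])).IsChain G.Adj) (hcQ : (x :: (Q ++ [y])).IsChain G.Adj) :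
    ∃ σ J, LinkSys G D σ J ∧ #J ≤ 2 ∧ ∑ e ∈ J, e.M.length = X.length + Q.length := by
  obtain ⟨hxy, hne⟩ := hok
  simp only [ne_eq, Sym2.eq_iff] at hne
  obtain ⟨pre, e0, e1, hp, hpD, hi0, hi1, hxne, hc0, hc1, he0, he1⟩ : ∃ (pre : List V)
      (e0 e1 : Link V), pre.Nodup ∧ (∀ v ∈ pre, v ∈ D) ∧ [e0.x, e0.y] <:+: pre ∧
      [e1.x, e1.y] <:+: pre ∧ e0.x ≠ e1.x ∧ (e0.x :: (e0.M ++ [e0.y])).IsChain G.Adj ∧
      (e1.x :: (e1.M ++ [e1.y])).IsChain G.Adj ∧ e0.M.Perm X ∧ e1.M.Perm Q := by
    by_cases h1 : x = a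
    · subst h1
      exact ⟨[b, x, y], ⟨b, x, X.reverse⟩, ⟨x, y, Q⟩, by simp; grind, by simp [ha, hb, hy],
        ⟨[], [y], rfl⟩, ⟨[b], [], rfl⟩, by grind, chain_flip hcX, hcQ, List.reverse_perm _, .refl _⟩
    by_cases h2 : x = b
    · subst h2
      exact ⟨[a, x, y], ⟨a, x, X⟩, ⟨x, y, Q⟩, by simp; grind, by simp [ha, hb, hy],
        ⟨[], [y], rfl⟩, ⟨[a], [], rfl⟩, by grind, hcX, hcQ, .refl _, .refl _⟩
    by_cases h3 : y = a
    · subst h3
      exact ⟨[x, y, b], ⟨y, b, X⟩, ⟨x, y, Q⟩, by simp; grind, by simp [ha, hb, hx],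
        ⟨[x], [], rfl⟩, ⟨[], [b], rfl⟩, by grind, hcX, hcQ, .refl _, .refl _⟩
    by_cases h4 : y = b
    · subst h4
      exact ⟨[a, y, x], ⟨a, y, X⟩, ⟨y, x, Q.reverse⟩, by simp; grind, by simp [ha, hb, hx],
        ⟨[], [x], rfl⟩, ⟨[a], [], rfl⟩, by grind, hcX, chain_flip hcQ, .refl _,
        List.reverse_perm _⟩
    exact ⟨[a, b, x, y], ⟨a, b, X⟩, ⟨x, y, Q⟩, by simp; grind, by simp [ha, hb, hx, hy],
      ⟨[], [x, y], rfl⟩, ⟨[a, b], [], rfl⟩, by grind, hcX, hcQ, .refl _, .refl _⟩
  have hne' : e0 ≠ e1 := fun h => hxne (by rw [h])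
  obtain ⟨σ, hσ⟩ := linkSys_of_pre (G := G) hp hpD (J := {e0, e1})
    (by simp [hi0, hi1]) (by simp [hxne, Ne.symm hxne]) (by simp [hc0, hc1])
    (by simp [he0.nodup_iff, he1.nodup_iff, hX, hQ])
    (by
      simp only [Finset.mem_insert, Finset.mem_singleton]
      rintro e (rfl | rfl) w hw
      · exact hXD w (he0.mem_iff.1 hw)
      · exact hQD w (he1.mem_iff.1 hw))
    (by
      simp only [Finset.mem_insert, Finset.mem_singleton]
      rintro e (rfl | rfl) e' (rfl | rfl) hne w hw hw'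
      · exact hne rfl
      · exact hXQ w (he0.mem_iff.1 hw) (he1.mem_iff.1 hw')
      · exact hXQ w (he0.mem_iff.1 hw') (he1.mem_iff.1 hw)
      · exact hne rfl)
  exact ⟨σ, _, hσ, Finset.card_le_two,
    by rw [Finset.sum_pair hne', he0.length_eq, he1.length_eq]⟩

theorem single_sys {D : Finset V} {x y : V} (hx : x ∈ D) (hy : y ∈ D) (hxy : x ≠ y) {Q : List V}
    (hQ : Q.Nodup) (hQD : ∀ w ∈ Q, w ∉ D) (hcQ : (x :: (Q ++ [y])).IsChain G.Adj) :
    ∃ σ J, LinkSys G D σ J ∧ #J ≤ 1 ∧ ∑ e ∈ J, e.M.length = Q.length := by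
  obtain ⟨σ, hσ⟩ := linkSys_of_pre (G := G) (D := D) (pre := [x, y]) (J := {⟨x, y, Q⟩})
    (by simp [hxy]) (by simp [hx, hy]) (by simp) (by simp) (by simpa using hcQ) (by simpa using hQ)
    (by simpa using hQD) (by simp)
  exact ⟨σ, _, hσ, by simp, by simp⟩

theorem exists_minimal_sub {ι : Type*} [DecidableEq ι] (J : Finset ι) (g : ι → ℕ) {t : ℕ}
    (h : t ≤ ∑ e ∈ J, g e) :
    ∃ J' ⊆ J, t ≤ ∑ e ∈ J', g e ∧ ∀ e ∈ J', ∑ e' ∈ J', g e' < t + g e := by
  obtain ⟨J', hJ', hmin⟩ := (J.powerset.filter (fun S => t ≤ ∑ e ∈ S, g e)).exists_min_image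
    Finset.card ⟨J, by simp [h]⟩
  simp only [Finset.mem_filter, Finset.mem_powerset] at hJ' hmin
  refine ⟨J', hJ'.1, hJ'.2, fun e he => ?_⟩
  by_contra hc
  have h1 := Finset.add_sum_erase J' g he
  have := hmin (J'.erase e) ⟨(Finset.erase_subset e J').trans hJ'.1, by omega⟩
  have := Finset.card_erase_lt_of_mem he
  omega

section nbrs

variable [Fintype V]

/-- The outside neighbourhood of `D` avoiding `X`. -/
def outNbrs (G : SimpleGraph V) [DecidableRel G.Adj] (D X : Finset V) : Finset V :=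
  Finset.univ.filter (fun w => w ∉ D ∧ w ∉ X ∧ ∃ u ∈ D, G.Adj u w)

omit [DecidableEq V] in
theorem cnt_flatten (Ps : List (List V)) (x : V) :
    ∑ i ∈ Finset.range Ps.length, cnt G (Ps.getD i []) x = cnt G Ps.flatten x := by
  induction Ps with
  | nil => simp [cnt]
  | cons P Ps ih =>
    rw [List.length_cons, Finset.sum_range_succ']
    simp only [List.getD_cons_succ, List.getD_cons_zero, List.flatten_cons]
    rw [ih]
    simp [cnt, List.filter_append]
    omega

omit [DecidableRel G.Adj] in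
theorem weight_bound {ι : Type*} [DecidableEq ι] {U : Finset V} {P : Finset ι} {d : ι → V → ℕ}
    {F : List (Comp V ι)} (hF : IsForest U P d F) :
    weight d F ≤ ∑ c ∈ (F.flatMap Comp.cols).toFinset, 2 * ∑ v ∈ U, d c v := by
  obtain ⟨hn, hmem, hinf, -⟩ := hF.order U P d
  have hcols : (F.flatMap Comp.edges).map (fun e => e.2.1) = F.flatMap Comp.cols := by
    rw [List.map_flatMap]
    exact (List.flatMap_congr fun K _ => Comp.cols_eq_map_edges K.2 K.1).symm
  rw [List.sum_toFinset _ hF.cols_nodup, ← hcols, List.map_map]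
  refine List.sum_le_sum fun e he => ?_
  have hU : e.1 ∈ U ∧ e.2.2 ∈ U :=
    ⟨(hmem _).1 ((hinf e he).subset (by simp)), (hmem _).1 ((hinf e he).subset (by simp))⟩
  have h1 := Finset.single_le_sum (f := fun v => d e.2.1 v) (fun _ _ => Nat.zero_le _) hU.1
  have h2 := Finset.single_le_sum (f := fun v => d e.2.1 v) (fun _ _ => Nat.zero_le _) hU.2
  simp only [Function.comp] at h1 h2 ⊢
  omega

/-- Weights of links, remembering a common neighbour when it exists. -/
def GoodLink (G : SimpleGraph V) (D : Finset V) (Jall : Finset (Link V)) (w : Link V → ℕ)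
    (e : Link V) : Prop :=
  1 ≤ e.M.length ∧ w e ≤ 2 * e.M.length ∧
    (e.M.length = 2 → w e ≤ 3 ∨
      ∃ z, z ∉ D ∧ G.Adj e.x z ∧ G.Adj e.y z ∧ ∀ e' ∈ Jall, e' ≠ e → z ∉ e'.M)

theorem exists_links {n t : ℕ}
    (hα : ∀ I : Finset V, G.IsIndepSet (I : Set V) → #I < n) (D : Finset V)
    (Fo : Finset (Link V)) (hFo1 : #Fo ≤ 1)
    (hFo : ∀ f ∈ Fo, f.x ∈ D ∧ f.y ∈ D ∧ f.x ≠ f.y ∧ f.M.Nodup ∧ (∀ w ∈ f.M, w ∉ D) ∧
      (f.x :: (f.M ++ [f.y])).IsChain G.Adj)
    (hD : n - 1 + #Fo < #D)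
    (hrow : ∀ x ∈ D, t ≤ #((outNbrs G D (Fo.biUnion (fun f => f.M.toFinset))).filter (G.Adj x))) :
    ∃ (σ : List V) (J J0 : Finset (Link V)) (w : Link V → ℕ),
      LinkSys G D σ (J ∪ J0) ∧ Disjoint J J0 ∧ #J0 = #Fo ∧
      (∑ e ∈ J0, e.M.length) = (∑ e ∈ Fo, e.M.length) ∧
      (∀ e ∈ J, ∀ v ∈ e.M, v ∈ outNbrs G D (Fo.biUnion (fun f => f.M.toFinset))) ∧
      (∀ e ∈ J, GoodLink G D (J ∪ J0) w e) ∧ 2 * t ≤ ∑ e ∈ J, w e := by
  classical
  set X := Fo.biUnion (fun f => f.M.toFinset) with hXdef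
  set W := outNbrs G D X with hW
  obtain ⟨Ps, hPlen, hPs, hPflat, hPmem⟩ := exists_cover W hα
  set p := Ps.length with hp
  have hPsub : ∀ i < p, ∀ v ∈ Ps.getD i [], v ∈ W := by
    intro i hi v hv
    simp [List.getD_eq_getElem?_getD, List.getElem?_eq_getElem (show i < Ps.length from hi)] at hv
    exact (hPmem v).1 (List.mem_flatten.2 ⟨_, List.getElem_mem _, hv⟩)
  have hPdisj : ∀ i < p, ∀ j < p, i ≠ j → ∀ v ∈ Ps.getD i [], v ∉ Ps.getD j [] := by
    intro i hi j hj hij v hv hv'
    simp [List.getD_eq_getElem?_getD, List.getElem?_eq_getElem (show i < Ps.length from hi)] at hv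
    simp [List.getD_eq_getElem?_getD, List.getElem?_eq_getElem (show j < Ps.length from hj)] at hv'
    have hpd := (List.nodup_flatten.1 hPflat).2
    rcases Nat.lt_or_gt_of_ne hij with h | h
    · exact List.pairwise_iff_getElem.1 hpd i j hi hj h hv hv'
    · exact List.pairwise_iff_getElem.1 hpd j i hj hi h hv' hv
  have hPgood : ∀ i < p, (Ps.getD i []).Nodup ∧ (Ps.getD i []).IsChain G.Adj := by
    intro i hi
    simp [List.getD_eq_getElem?_getD, List.getElem?_eq_getElem (show i < Ps.length from hi)]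
    exact hPs _ (List.getElem_mem _)
  let B0 := ∑ i ∈ Finset.range p, 2 * ∑ v ∈ D, cnt G (Ps.getD i []) v
  let d : Option ℕ → V → ℕ := fun c v => match c with
    | some i => cnt G (Ps.getD i []) v
    | none => if ∃ f ∈ Fo, v = f.x ∨ v = f.y then B0 + 1 else 0
  set Psome := (Finset.range p).image some with hPsome
  let P : Finset (Option ℕ) := Psome ∪ (if Fo.Nonempty then {none} else ∅)
  have hPcard : P.card < #D := by
    have h1 : #P ≤ p + #Fo := by
      refine (Finset.card_union_le _ _).trans ?_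
      have : #Psome ≤ p := (Finset.card_image_le).trans (by simp)
      split_ifs with h
      · have := h.card_pos; simp; omega
      · simp; omega
    omega
  obtain ⟨F, hF⟩ := exists_maxForest D P d
  have hrow' : ∀ x ∈ D, t ≤ ∑ c ∈ Psome, d c x := by
    intro x hx
    rw [Finset.sum_image (fun a _ b _ h => Option.some_injective _ h)]
    refine (hrow x hx).trans (le_of_eq ?_)
    rw [show (∑ i ∈ Finset.range p, d (some i) x) = cnt G Ps.flatten x from cnt_flatten Ps x, cnt,
      ← List.toFinset_card_of_nodup (hPflat.filter _)]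
    congr 1
    ext v
    rw [List.mem_toFinset, List.mem_filter, Finset.mem_filter, hPmem]
    simp
  have hwt := forest_lemma D P d hPcard hF Psome Finset.subset_union_left hrow'
  obtain ⟨hnd, hmem, hinf, hfst⟩ := hF.1.order D P d
  set E := (F.flatMap Comp.edges).toFinset with hEdef
  have hEnd : (F.flatMap Comp.edges).Nodup := List.Nodup.of_map _ hfst
  have hxinj : ∀ e ∈ E, ∀ e' ∈ E, e.1 = e'.1 → e = e' := fun e he e' he' h =>
    List.inj_on_of_nodup_map hfst (List.mem_toFinset.1 he) (List.mem_toFinset.1 he') h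
  have hcolnd : ((F.flatMap Comp.edges).map (fun e => e.2.1)).Nodup := by
    rw [List.map_flatMap, ← List.flatMap_congr fun K _ => Comp.cols_eq_map_edges K.2 K.1]
    exact hF.1.cols_nodup
  have hcinj : ∀ e ∈ E, ∀ e' ∈ E, e.2.1 = e'.2.1 → e = e' := fun e he e' he' h =>
    List.inj_on_of_nodup_map hcolnd (List.mem_toFinset.1 he) (List.mem_toFinset.1 he') h
  have hEP : ∀ e ∈ E, e.2.1 ∈ P := by
    intro e he
    apply hF.1.cols_mem
    rw [List.flatMap_congr fun K _ => Comp.cols_eq_map_edges K.2 K.1, ← List.map_flatMap]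
    exact List.mem_map_of_mem (List.mem_toFinset.1 he)
  have hne12 : ∀ e ∈ E, e.1 ≠ e.2.2 := by
    intro e he h
    have := (hinf e (List.mem_toFinset.1 he)).sublist.nodup hnd
    simp [h] at this
  have hforced : ∀ f ∈ Fo, ∃ e ∈ E, e.2.1 = none ∧ s(e.1, e.2.2) = s(f.x, f.y) := by
    intro f hf
    obtain ⟨fx, fy, fne, -⟩ := hFo f hf
    have hFo' : ∀ g ∈ Fo, g = f := fun g hg => Finset.card_le_one.1 hFo1 g hg f hf
    have hnone : none ∈ F.flatMap Comp.cols := by
      by_contra hno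
      have hF0 : IsForest D P d
          (((f.x, [(none, f.y)]) : Comp V (Option ℕ)) ::
            ((D.erase f.x).erase f.y).toList.map fun v => (v, [])) := by
        refine ⟨?_, ?_, ?_, ?_⟩
        · rw [List.flatMap_cons, List.flatMap_map]
          refine List.perm_of_nodup_nodup_toFinset_eq ?_ D.nodup_toList ?_
          · simp [Comp.verts, fne, Finset.nodup_toList]
          · ext v
            simp [Comp.verts]
            grind
        · rw [List.flatMap_cons, List.flatMap_eq_nil_iff.2 (by simp [Comp.cols])]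
          simp [Comp.cols]
        · intro c hc
          simp [Comp.cols, List.flatMap_map] at hc
          subst hc
          simp only [P, Finset.mem_union]
          right
          rw [if_pos ⟨f, hf⟩]
          exact Finset.mem_singleton_self _
        · intro e he
          simp [Comp.edges, Comp.edgesAux, List.flatMap_map] at he
          subst he
          simp only [d]
          rw [if_pos ⟨f, hf, Or.inl rfl⟩, if_pos ⟨f, hf, Or.inr rfl⟩]
          omega
      have h1 := hF.2 _ hF0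
      have h2 := weight_bound hF.1
      have h3 : (∑ c ∈ (F.flatMap Comp.cols).toFinset, 2 * ∑ v ∈ D, d c v) ≤ B0 := by
        refine (Finset.sum_le_sum_of_subset (t := Psome) ?_).trans (le_of_eq ?_)
        · intro c hc
          have hcP := hF.1.cols_mem c (List.mem_toFinset.1 hc)
          rcases Finset.mem_union.1 hcP with h | h
          · exact h
          · split_ifs at h <;> simp at h
            exact absurd (List.mem_toFinset.1 hc) (h ▸ hno)
        · rw [Finset.sum_image (fun a _ b _ h => Option.some_injective _ h)]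
      have h4 : 2 * (B0 + 1) ≤ weight d (((f.x, [(none, f.y)]) : Comp V (Option ℕ)) ::
            ((D.erase f.x).erase f.y).toList.map fun v => (v, [])) := by
        simp only [weight, List.flatMap_cons, Comp.edges, Comp.edgesAux, List.map_append,
          List.sum_append, List.map_cons, List.map_nil, List.sum_cons, List.sum_nil, d]
        rw [if_pos ⟨f, hf, Or.inl rfl⟩, if_pos ⟨f, hf, Or.inr rfl⟩]
        omega
      omega
    rw [List.flatMap_congr fun K _ => Comp.cols_eq_map_edges K.2 K.1, ← List.map_flatMap] at hnone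
    obtain ⟨e, he, hec⟩ := List.mem_map.1 hnone
    refine ⟨e, List.mem_toFinset.2 he, hec, ?_⟩
    have hpos := hF.1.pos e he
    have hne := hne12 e (List.mem_toFinset.2 he)
    simp only [hec, d] at hpos
    split_ifs at hpos with h1 h2 <;> try omega
    obtain ⟨g1, hg1, hh1⟩ := h1
    obtain ⟨g2, hg2, hh2⟩ := h2
    rw [hFo' g1 hg1] at hh1
    rw [hFo' g2 hg2] at hh2
    rw [Sym2.eq_iff]
    grind
  set E1 := E.filter (fun e => e.2.1 ∈ Psome) with hE1
  have hgain : ∀ e ∈ E1, ∃ Q : List V, 1 ≤ Q.length ∧ Q.Nodup ∧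
      (∀ i, e.2.1 = some i → ∀ v ∈ Q, v ∈ Ps.getD i []) ∧ (∀ v ∈ Q, v ∈ W) ∧
      (e.1 :: (Q ++ [e.2.2])).IsChain G.Adj ∧ d e.2.1 e.1 + d e.2.1 e.2.2 ≤ 2 * Q.length ∧
      (Q.length = 2 → d e.2.1 e.1 + d e.2.1 e.2.2 ≤ 3 ∨
        ∃ z, ∃ i < p, e.2.1 = some i ∧ z ∈ Ps.getD i [] ∧ G.Adj e.1 z ∧ G.Adj e.2.2 z) := by
    intro e he
    rw [hE1, Finset.mem_filter] at he
    obtain ⟨i, hi, hie⟩ := Finset.mem_image.1 he.2
    rw [Finset.mem_range] at hi
    have hpos := hF.1.pos e (List.mem_toFinset.1 he.1)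
    rw [← hie] at hpos ⊢
    obtain ⟨Q, q1, q2, q3, q4, q5, q6⟩ :=
      exists_gain (hPgood i hi).1 (hPgood i hi).2 hpos.1 hpos.2
    refine ⟨Q, q1, q2, fun j hj => ?_, fun v hv => hPsub i hi v (q3 v hv), q4, q5,
      fun h => (q6 h).imp id fun ⟨z, h1, h2, h3⟩ => ⟨z, i, hi, rfl, h1, h2, h3⟩⟩
    obtain rfl : i = j := Option.some_injective _ hj
    exact q3
  choose! Q hQ1 hQ2 hQ3 hQ4 hQ5 hQ6 hQ7 using hgain
  let mk : V × Option ℕ × V → Link V := fun e => ⟨e.1, e.2.2, Q e⟩
  set E0 := E.filter (fun e => e.2.1 = none) with hE0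
  have hE0F : ∀ e ∈ E0, ∃ f ∈ Fo, s(e.1, e.2.2) = s(f.x, f.y) := by
    intro e he
    rw [hE0, Finset.mem_filter] at he
    have hFne : Fo.Nonempty := by
      have := hEP e he.1
      simp only [P, he.2, Psome, Finset.mem_union, Finset.mem_image, reduceCtorEq, and_false,
        exists_false, false_or] at this
      by_contra hn
      rw [if_neg hn] at this
      simp at this
    obtain ⟨f, hf⟩ := hFne
    obtain ⟨e', he', hc, hp'⟩ := hforced f hf
    have := hcinj e he.1 e' he' (he.2.trans hc.symm)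
    exact ⟨f, hf, this ▸ hp'⟩
  haveI : Nonempty (Link V) := by
    obtain ⟨v, -⟩ := Finset.card_pos.1 (show 0 < #D by omega)
    exact ⟨⟨v, v, []⟩⟩
  choose! fo hfo hfop using hE0F
  let mk0 : V × Option ℕ × V → Link V := fun e =>
    ⟨e.1, e.2.2, if e.1 = (fo e).x then (fo e).M else (fo e).M.reverse⟩
  let w : Link V → ℕ := fun l => ∑ e ∈ E1.filter (fun e => e.1 = l.x),
    (d e.2.1 e.1 + d e.2.1 e.2.2)
  have hE1E : ∀ e ∈ E1, e ∈ E := fun e he => (Finset.mem_filter.1 he).1
  have hE0E : ∀ e ∈ E0, e ∈ E := fun e he => (Finset.mem_filter.1 he).1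
  have hd01 : ∀ e ∈ E1, ∀ e' ∈ E0, e.1 ≠ e'.1 := by
    intro e he e' he' h
    have := hxinj e (hE1E e he) e' (hE0E e' he') h
    subst this
    simp [hE1, hE0, Psome] at he he'
    rw [he'.2] at he
    simp at he
  have hmk0 : ∀ e ∈ E0, (mk0 e).M.Perm (fo e).M := by
    intro e _
    simp only [mk0]
    split_ifs
    · exact .refl _
    · exact List.reverse_perm _
  have hwmk : ∀ e ∈ E1, w (mk e) = d e.2.1 e.1 + d e.2.1 e.2.2 := by
    intro e he
    simp only [w, mk]
    rw [Finset.sum_eq_single_of_mem e (by simp [he])]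
    intro b hb hne
    rw [Finset.mem_filter] at hb
    exact absurd (hxinj b (hE1E b hb.1) e (hE1E e he) hb.2) hne
  have hWD : ∀ v ∈ W, v ∉ D ∧ v ∉ X := fun v hv => by
    simp [hW, outNbrs] at hv; exact ⟨hv.1, hv.2.1⟩
  have hoff01 : ∀ e ∈ E1, ∀ e' ∈ E0, ∀ v ∈ (mk e).M, v ∉ (mk0 e').M := fun e he e' he' v hv hv' =>
    (hWD v (hQ4 e he v hv)).2 (Finset.mem_biUnion.2
      ⟨fo e', hfo e' he', List.mem_toFinset.2 ((hmk0 e' he').mem_iff.1 hv')⟩)
  have hdiff : ∀ e ∈ E1, ∀ e' ∈ E1, e ≠ e' → ∀ v, (∃ i, e.2.1 = some i ∧ v ∈ Ps.getD i []) →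
      ¬ ∃ i, e'.2.1 = some i ∧ v ∈ Ps.getD i [] := by
    rintro e he e' he' hne v ⟨i, hi, hv⟩ ⟨j, hj, hv'⟩
    have hip : i < p := by
      have := (Finset.mem_filter.1 he).2
      simpa [Psome, hi] using this
    have hjp : j < p := by
      have := (Finset.mem_filter.1 he').2
      simpa [Psome, hj] using this
    refine hPdisj i hip j hjp (fun h => hne (hcinj e (hE1E e he) e' (hE1E e' he') ?_)) v hv hv'
    rw [hi, hj, h]
  have hmem1 : ∀ e ∈ E1, ∀ v ∈ Q e, ∃ i, e.2.1 = some i ∧ v ∈ Ps.getD i [] := by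
    intro e he v hv
    obtain ⟨i, -, hie⟩ := Finset.mem_image.1 (Finset.mem_filter.1 he).2
    exact ⟨i, hie.symm, hQ3 e he i hie.symm v hv⟩
  refine ⟨F.flatMap Comp.verts, E1.image mk, E0.image mk0, w,
    ⟨hnd, hmem, ?_, ?_, ?_, ?_, ?_, ?_⟩, ?_, ?_, ?_, ?_, ?_, ?_⟩
  · intro l hl
    simp only [Finset.mem_union, Finset.mem_image] at hl
    rcases hl with ⟨e, he, rfl⟩ | ⟨e, he, rfl⟩
    · exact hinf e (List.mem_toFinset.1 (hE1E e he))
    · exact hinf e (List.mem_toFinset.1 (hE0E e he))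
  · intro l hl l' hl' h
    simp only [Finset.mem_union, Finset.mem_image] at hl hl'
    rcases hl with ⟨e, he, rfl⟩ | ⟨e, he, rfl⟩ <;> rcases hl' with ⟨e', he', rfl⟩ | ⟨e', he', rfl⟩
    · rw [hxinj e (hE1E e he) e' (hE1E e' he') h]
    · exact absurd h (hd01 e he e' he')
    · exact absurd h.symm (hd01 e' he' e he)
    · rw [hxinj e (hE0E e he) e' (hE0E e' he') h]
  · intro l hl
    simp only [Finset.mem_union, Finset.mem_image] at hl
    rcases hl with ⟨e, he, rfl⟩ | ⟨e, he, rfl⟩
    · exact hQ5 e he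
    · have hc := (hFo _ (hfo e he)).2.2.2.2.2
      have hp' := hfop e he
      rw [Sym2.eq_iff] at hp'
      simp only [mk0]
      split_ifs with h
      · rcases hp' with ⟨h1, h2⟩ | ⟨h1, h2⟩
        · rw [h1, h2]; exact hc
        · exact absurd (h.symm.trans h1) (hFo _ (hfo e he)).2.2.1
      · rcases hp' with ⟨h1, h2⟩ | ⟨h1, h2⟩
        · exact absurd h1 h
        · rw [h1, h2]; exact chain_flip hc
  · intro l hl
    simp only [Finset.mem_union, Finset.mem_image] at hl
    rcases hl with ⟨e, he, rfl⟩ | ⟨e, he, rfl⟩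
    · exact hQ2 e he
    · exact (hmk0 e he).nodup_iff.2 (hFo _ (hfo e he)).2.2.2.1
  · intro l hl v hv
    simp only [Finset.mem_union, Finset.mem_image] at hl
    rcases hl with ⟨e, he, rfl⟩ | ⟨e, he, rfl⟩
    · exact (hWD v (hQ4 e he v hv)).1
    · exact (hFo _ (hfo e he)).2.2.2.2.1 v ((hmk0 e he).mem_iff.1 hv)
  · intro l hl l' hl' hne v hv hv'
    simp only [Finset.mem_union, Finset.mem_image] at hl hl'
    rcases hl with ⟨e, he, rfl⟩ | ⟨e, he, rfl⟩ <;> rcases hl' with ⟨e', he', rfl⟩ | ⟨e', he', rfl⟩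
    · exact hdiff e he e' he' (fun h => hne (by rw [h])) v (hmem1 e he v hv) (hmem1 e' he' v hv')
    · exact hoff01 e he e' he' v hv hv'
    · exact hoff01 e' he' e he v hv' hv
    · refine hne ?_
      rw [hcinj e (hE0E e he) e' (hE0E e' he')
        ((Finset.mem_filter.1 he).2.trans (Finset.mem_filter.1 he').2.symm)]
  · rw [Finset.disjoint_left]
    intro l hl hl'
    obtain ⟨e, he, rfl⟩ := Finset.mem_image.1 hl
    obtain ⟨e', he', h⟩ := Finset.mem_image.1 hl'
    exact hd01 e he e' he' (congrArg Link.x h).symm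
  rotate_left 2
  · intro l hl v hv
    obtain ⟨e, he, rfl⟩ := Finset.mem_image.1 hl
    exact hQ4 e he v hv
  · intro l hl
    obtain ⟨e, he, rfl⟩ := Finset.mem_image.1 hl
    refine ⟨hQ1 e he, by rw [hwmk e he]; exact hQ6 e he, fun h2 => ?_⟩
    rcases hQ7 e he h2 with h | ⟨z, i, hip, hei, hz, hxz, hyz⟩
    · exact Or.inl (by rw [hwmk e he]; exact h)
    · refine Or.inr ⟨z, (hWD z (hPsub i hip z hz)).1, hxz, hyz, fun l' hl' hne hz' => ?_⟩
      simp only [Finset.mem_union, Finset.mem_image] at hl'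
      rcases hl' with ⟨e', he', rfl⟩ | ⟨e', he', rfl⟩
      · exact hdiff e he e' he' (fun h => hne (by rw [h])) z ⟨i, hei, hz⟩ (hmem1 e' he' z hz')
      · exact (hWD z (hPsub i hip z hz)).2 (Finset.mem_biUnion.2
          ⟨fo e', hfo e' he', List.mem_toFinset.2 ((hmk0 e' he').mem_iff.1 hz')⟩)
  · rw [Finset.sum_image (fun e he e' he' h =>
        hxinj e (hE1E e he) e' (hE1E e' he') (congrArg Link.x h)), Finset.sum_congr rfl hwmk,
      show E1 = ((F.flatMap Comp.edges).filter (fun e => decide (e.2.1 ∈ Psome))).toFinset by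
        ext; simp [hE1, hEdef],
      List.sum_toFinset _ (hEnd.filter _)]
    exact hwt
  all_goals
    have hbij : E0.image fo = Fo := by
      apply Finset.Subset.antisymm
      · intro f hf
        obtain ⟨e, he, rfl⟩ := Finset.mem_image.1 hf
        exact hfo e he
      · intro f hf
        obtain ⟨e, he, hc, -⟩ := hforced f hf
        have he0 : e ∈ E0 := by simp [hE0, he, hc]
        exact Finset.mem_image.2 ⟨e, he0, Finset.card_le_one.1 hFo1 _ (hfo e he0) f hf⟩
    have h01 : ∀ e ∈ E0, ∀ e' ∈ E0, e = e' := fun e he e' he' =>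
      hcinj e (hE0E e he) e' (hE0E e' he')
        ((Finset.mem_filter.1 he).2.trans (Finset.mem_filter.1 he').2.symm)
  · rw [Finset.card_image_of_injOn (fun e he e' he' _ => h01 e he e' he'), ← hbij,
      Finset.card_image_of_injOn (fun e he e' he' _ => h01 e he e' he')]
  · rw [Finset.sum_image (fun e he e' he' _ => h01 e he e' he'), ← hbij,
      Finset.sum_image (fun e he e' he' _ => h01 e he e' he')]
    exact Finset.sum_congr rfl fun e he => (hmk0 e he).length_eq

theorem row_bound {m : ℕ} (hdeg : ∀ v, m - 1 ≤ G.degree v) {D X : Finset V} {x : V} (hx : x ∈ D) :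
    m ≤ #((outNbrs G D X).filter (G.Adj x)) + #D + #X := by
  have hsub : G.neighborFinset x ⊆ (outNbrs G D X).filter (G.Adj x) ∪ (D.erase x ∪ X) := by
    intro w hw
    rw [mem_neighborFinset] at hw
    simp only [outNbrs, Finset.mem_union, Finset.mem_filter, Finset.mem_univ, true_and,
      Finset.mem_erase]
    by_cases h : w ∈ D <;> by_cases h' : w ∈ X
    · exact Or.inr (Or.inr h')
    · exact Or.inr (Or.inl ⟨hw.ne.symm, h⟩)
    · exact Or.inr (Or.inr h')
    · exact Or.inl ⟨⟨h, h', x, hx, hw⟩, hw⟩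
  have h1 := (Finset.card_le_card hsub).trans (Finset.card_union_le _ _)
  have h2 := Finset.card_union_le (D.erase x) X
  have h3 := Finset.card_erase_of_mem hx
  have h4 : 1 ≤ #D := Finset.card_pos.2 ⟨x, hx⟩
  have := hdeg x
  rw [card_neighborFinset_eq_degree] at h1
  omega

theorem close_with {D : Finset V} {σ : List V} {J : Finset (Link V)} {m δ z : ℕ}
    (hJ : LinkSys G D σ J) (hδ : ∀ v ∈ D, δ ≤ degIn G D v)
    (hends : #(ends J) + z ≤ #D) (h3 : z + 3 ≤ #D) (hpos : #D + #J + z ≤ 2 * δ)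
    (hm : m + z = #D + ∑ e ∈ J, e.M.length) : HasCycle G m :=
  assemble hJ hδ hends h3 hpos hm

theorem exists_half {D : Finset V} {m c : ℕ} (hδ : ∀ v ∈ D, m ≤ 2 * #(D.filter (G.Adj v)) + c) :
    ∃ δ, m ≤ 2 * δ + c ∧ ∀ v ∈ D, δ ≤ degIn G D v := by
  refine ⟨(m - c + 1) / 2, by omega, fun v hv => ?_⟩
  have := hδ v hv
  simp only [degIn]
  omega

theorem arith_rz {r z t : ℕ} (h : r * (z + 1) ≤ t + z) (hr : 2 ≤ r) :
    r + z ≤ t ∧ (1 ≤ z → 2 * r + z ≤ t + 2) := by
  obtain ⟨a, rfl⟩ : ∃ a, r = a + 2 := ⟨r - 2, by omega⟩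
  refine ⟨by nlinarith, fun hz => ?_⟩
  have := Nat.mul_le_mul_left a hz
  nlinarith

theorem cluster_one {m n : ℕ} (hn : 3 ≤ n)
    (hα : ∀ I : Finset V, G.IsIndepSet (I : Set V) → #I < n) (hF2 : F2 G m n)
    (hdeg : ∀ v, m - 1 ≤ G.degree v) (D : Finset V) (hk : #D + 1 ≤ m) (hnk : n ≤ #D)
    (h2k : m + 2 ≤ 2 * #D) (hδ : ∀ v ∈ D, m ≤ 2 * #(D.filter (G.Adj v))) (h4 : 4 ≤ #D) :
    HasCycle G m := by
  classical
  obtain ⟨δ, h2δ, hδD⟩ := exists_half (G := G) (m := m) (c := 0) (D := D) (by simpa using hδ)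
  by_cases ht1 : #D + 1 = m
  · obtain ⟨U, hUD, hUc⟩ := Finset.exists_subset_card_eq (s := D) (n := n) hnk
    obtain ⟨x, hx, y, hy, hxy, w, hw, hxw, hyw⟩ := hF2 D hk U hUD hUc
    obtain ⟨σ, J, hJ, hJc, hJs⟩ := single_sys (G := G) (hUD hx) (hUD hy) hxy (Q := [w]) (by simp)
      (by simpa using hw) (by simp [hxw, hyw.symm])
    have := card_ends_le J
    simp at hJs
    exact close_with hJ hδD (z := 0) (by omega) (by omega) (by omega) (by omega)
  set t := m - #D with ht
  obtain ⟨σ, J, J0, w, hsys, -, hJ0, -, hJW, hgood, hsum⟩ :=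
    exists_links (G := G) (n := n) (t := t) hα D ∅ (by simp) (by simp) (by simp; omega)
      (fun x hx => by
        have := row_bound (X := (∅ : Finset (Link V)).biUnion (fun f => f.M.toFinset)) hdeg hx
        simp at this ⊢; omega)
  simp only [Finset.card_empty, Finset.card_eq_zero] at hJ0
  subst hJ0
  rw [Finset.union_empty] at hsys hgood
  have hΓ : t ≤ ∑ e ∈ J, e.M.length := by
    have : ∑ e ∈ J, w e ≤ ∑ e ∈ J, 2 * e.M.length :=
      Finset.sum_le_sum fun e he => (hgood e he).2.1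
    rw [← Finset.mul_sum] at this
    omega
  by_cases hbig : ∃ e ∈ J, t ≤ e.M.length
  · obtain ⟨e, he, hte⟩ := hbig
    have hxD := hsys.ends_subset (Finset.mem_union_left _ (Finset.mem_image_of_mem Link.x he))
    have hyD := hsys.ends_subset (Finset.mem_union_right _ (Finset.mem_image_of_mem Link.y he))
    have hxy := hsys.x_ne_y he
    have hokab : OKPair e.x e.x e.x e.y := by
      refine ⟨hxy, ?_⟩
      simp [Ne.symm hxy]
    obtain ⟨Q, x, y, hQl, hQn, hQm, hx, hy, ⟨hne, -⟩, hQc⟩ := shrink (G := G) D e.x e.x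
      (by omega) e.M e.x e.y hte (hsys.nodup e he) hxD hyD hokab (hsys.chain e he)
      (fun v hv => by
        have := hJW e he v hv
        simp [outNbrs] at this
        obtain ⟨-, u, hu, huv⟩ := this
        exact ⟨u, hu, huv.symm⟩)
    obtain ⟨σ', J', hJ', hJc, hJs⟩ := single_sys (G := G) hx hy hne hQn
      (fun v hv => hsys.off e he v (hQm v hv)) hQc
    have := card_ends_le J'
    exact close_with hJ' hδD (z := Q.length - t) (by omega) (by omega) (by omega) (by omega)
  push Not at hbig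
  obtain ⟨J', hJ'J, hJ't, hmin⟩ := exists_minimal_sub J (fun e => e.M.length) hΓ
  set z := ∑ e ∈ J', e.M.length - t with hz
  have hr : #J' * (z + 1) ≤ t + z := by
    have : ∑ _e ∈ J', (z + 1) ≤ ∑ e ∈ J', e.M.length :=
      Finset.sum_le_sum fun e he => by have := hmin e he; omega
    simp only [Finset.sum_const, smul_eq_mul] at this
    omega
  have hr2 : 2 ≤ #J' := by
    by_contra h
    rcases Nat.lt_or_ge (#J') 1 with h0 | h0
    · rw [Finset.card_eq_zero.1 (show #J' = 0 by omega)] at hJ't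
      simp at hJ't; omega
    · obtain ⟨e, he⟩ := Finset.card_eq_one.1 (show #J' = 1 by omega)
      rw [he, Finset.sum_singleton] at hJ't
      have := hbig e (hJ'J (by simp [he]))
      omega
  have := card_ends_le J'
  have := Finset.card_le_card (hsys.mono hJ'J).ends_subset
  obtain ⟨hrz, hez'⟩ := arith_rz hr hr2
  have hez : z = 0 ∨ 2 * #J' + z ≤ t + 2 := by
    rcases Nat.eq_zero_or_pos z with h | h
    · exact Or.inl h
    · exact Or.inr (hez' h)
  exact close_with (hsys.mono hJ'J) hδD (z := z) (by omega) (by omega) (by omega) (by omega)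

theorem fallback {D : Finset V} {σ : List V} {J J0 J' : Finset (Link V)} {w : Link V → ℕ}
    {m δ g0 t : ℕ} (hsys : LinkSys G D σ (J ∪ J0)) (hdis : Disjoint J J0) (hJ0 : #J0 = 1)
    (hJ0s : ∑ e ∈ J0, e.M.length = g0) (hgood : ∀ e ∈ J, GoodLink G D (J ∪ J0) w e)
    (hsum : 2 * t ≤ ∑ e ∈ J, w e) (hbig : ∀ e ∈ J, e.M.length < t) (hJ'J : J' ⊆ J)
    (hm : m = #D + t + g0) (h2δ : m ≤ 2 * δ + 2) (hδD : ∀ v ∈ D, δ ≤ degIn G D v)
    (h3 : 3 ≤ g0) (h9 : 9 ≤ #D) (hge : ∀ e ∈ J', 2 ≤ e.M.length)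
    (hsum' : ∑ e ∈ J', e.M.length = t + 1) (hrk : 2 * #J' + 2 = #D)
    (hrt : 2 * #J' = t + 1 ∧ #(ends (J' ∪ J0)) = #D) : HasCycle G m := by
  classical
  obtain ⟨hrt, hfull⟩ := hrt
  set r := #J' with hrdef
  have hr4 : 4 ≤ r := by omega
  have hsub : ∀ S ⊆ J, LinkSys G D σ (S ∪ J0) := fun S h =>
    hsys.mono (Finset.union_subset_union_left h)
  have hcardU : ∀ S ⊆ J, #(S ∪ J0) = #S + 1 := fun S h => by
    rw [Finset.card_union_of_disjoint (hdis.mono_left h), hJ0]
  have hsumU : ∀ S ⊆ J, ∑ e ∈ S ∪ J0, e.M.length = (∑ e ∈ S, e.M.length) + g0 := fun S h => by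
    rw [Finset.sum_union (hdis.mono_left h), hJ0s]
  have hcJ' := hcardU J' hJ'J
  have hsumJ' := hsumU J' hJ'J
  have hlen2 : ∀ e ∈ J', e.M.length = 2 := by
    intro e he
    by_contra hne
    have h1 : 2 ≤ e.M.length := hge e he
    have h2 := Finset.add_sum_erase J' (fun e => e.M.length) he
    have h3 : ∑ _e' ∈ J'.erase e, 2 ≤ ∑ e' ∈ J'.erase e, e'.M.length :=
      Finset.sum_le_sum fun e' he' => hge e' (Finset.mem_of_mem_erase he')
    simp only [Finset.sum_const, smul_eq_mul, Finset.card_erase_of_mem he] at h3 h2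
    omega
  by_cases hcherry : ∃ e ∈ J', 3 < w e
  · obtain ⟨e, he, hwe⟩ := hcherry
    obtain ⟨-, -, h⟩ := hgood e (hJ'J he)
    rcases h (hlen2 e he) with h | ⟨v, hvD, hxv, hyv, hother⟩
    · omega
    have hsys' := (hsub J' hJ'J).replace (Finset.mem_union_left _ he) hvD hxv hyv
      fun e' he' => hother e' (Finset.union_subset_union_left hJ'J he')
    set J'' := insert (⟨e.x, e.y, [v]⟩ : Link V) ((J' ∪ J0).erase e)
    have hnew : (⟨e.x, e.y, [v]⟩ : Link V) ∉ (J' ∪ J0).erase e := by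
      intro h
      have := (hsub J' hJ'J).x_inj _ (Finset.mem_of_mem_erase h) e (Finset.mem_union_left _ he) rfl
      exact Finset.ne_of_mem_erase h this
    have hmem : e ∈ J' ∪ J0 := Finset.mem_union_left _ he
    have h1 : ∑ f ∈ J'', f.M.length + 1 = ∑ f ∈ J' ∪ J0, f.M.length := by
      rw [Finset.sum_insert hnew, ← Finset.add_sum_erase _ _ hmem, hlen2 e he]
      simp
      omega
    have h2 : #J'' = r + 1 := by
      rw [Finset.card_insert_of_notMem hnew, Finset.card_erase_of_mem hmem, hcJ']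
      omega
    have h3 := Finset.card_le_card hsys'.ends_subset
    exact close_with hsys' hδD (z := 0) (by omega) (by omega) (by omega) (by omega)
  push Not at hcherry
  obtain ⟨f, hfJ, hfJ'⟩ : ∃ f ∈ J, f ∉ J' := by
    by_contra h
    push Not at h
    have : ∑ e ∈ J, w e ≤ ∑ _e ∈ J', 3 :=
      (Finset.sum_le_sum_of_subset h).trans (Finset.sum_le_sum hcherry)
    simp only [Finset.sum_const, smul_eq_mul] at this
    omega
  have hf1 := (hgood f hfJ).1
  by_cases hf3 : 3 ≤ f.M.length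
  · set j := (t - f.M.length + 1) / 2
    have hft := hbig f hfJ
    obtain ⟨S, hS, hSc⟩ := Finset.exists_subset_card_eq (s := J') (n := j) (by omega)
    have hfS : f ∉ S := fun h => hfJ' (hS h)
    have hS2 : insert f S ⊆ J := Finset.insert_subset hfJ (hS.trans hJ'J)
    have h1 := hcardU _ hS2
    have h2 := hsumU _ hS2
    rw [Finset.card_insert_of_notMem hfS] at h1
    rw [Finset.sum_insert hfS, Finset.sum_congr rfl (fun e he => hlen2 e (hS he)),
      Finset.sum_const, smul_eq_mul, hSc] at h2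
    have := card_ends_le (insert f S ∪ J0)
    exact close_with (hsub _ hS2) hδD (z := f.M.length + j * 2 - t) (by omega) (by omega)
      (by omega) (by omega)
  obtain ⟨e', he'⟩ := Finset.card_eq_one.1 hJ0
  have hfm : f ∈ J ∪ J0 := Finset.mem_union_left _ hfJ
  have hfD : f.x ∈ D ∧ f.y ∈ D :=
    ⟨hsys.ends_subset (Finset.mem_union_left _ (Finset.mem_image_of_mem _ hfm)),
      hsys.ends_subset (Finset.mem_union_right _ (Finset.mem_image_of_mem _ hfm))⟩
  have hall : ∀ v ∈ D, ∃ c ∈ J' ∪ J0, v = c.x ∨ v = c.y := by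
    intro v hv
    rw [← Finset.eq_of_subset_of_card_le (hsub J' hJ'J).ends_subset (by omega)] at hv
    simp only [ends, Finset.mem_union, Finset.mem_image] at hv
    rcases hv with ⟨c, hc, h⟩ | ⟨c, hc, h⟩
    · exact ⟨c, Finset.mem_union.2 hc, Or.inl h.symm⟩
    · exact ⟨c, Finset.mem_union.2 hc, Or.inr h.symm⟩
  obtain ⟨c, hc, hcu⟩ : ∃ c ∈ J', f.x = c.x ∨ f.x = c.y ∨ f.y = c.x ∨ f.y = c.y := by
    obtain ⟨c1, hc1, h1⟩ := hall f.x hfD.1
    obtain ⟨c2, hc2, h2⟩ := hall f.y hfD.2
    rcases Finset.mem_union.1 hc1 with h | h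
    · exact ⟨c1, h, by tauto⟩
    rcases Finset.mem_union.1 hc2 with h' | h'
    · exact ⟨c2, h', by tauto⟩
    exfalso
    rw [he', Finset.mem_singleton] at h h'
    subst h h'
    have hne := hsys.x_ne_y hfm
    have := hsys.pair_inj hfm (Finset.mem_union_right _ (by simp [he']))
      (show s(f.x, f.y) = s(c2.x, c2.y) by rw [Sym2.eq_iff]; grind)
    subst this
    exact Finset.disjoint_left.1 hdis hfJ (by simp [he'])
  set S := insert f (J'.erase c) with hSdef
  have hfS : f ∉ J'.erase c := fun h => hfJ' (Finset.mem_of_mem_erase h)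
  have hS2 : S ⊆ J := Finset.insert_subset hfJ ((Finset.erase_subset _ _).trans hJ'J)
  have h1 := hcardU _ hS2
  have h2 := hsumU _ hS2
  have h1' : #S + 1 = #J' + 1 := by
    rw [hSdef, Finset.card_insert_of_notMem hfS, Finset.card_erase_of_mem hc]
    have := Finset.card_pos.2 ⟨c, hc⟩
    omega
  have h2' : ∑ e ∈ S, e.M.length = f.M.length + ∑ e ∈ J'.erase c, e.M.length := by
    rw [hSdef, Finset.sum_insert hfS]
  have h3 := Finset.add_sum_erase J' (fun e => e.M.length) hc
  simp only [hlen2 c hc] at h3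
  by_cases hf2 : f.M.length = 1
  · have := Finset.card_le_card (hsub _ hS2).ends_subset
    exact close_with (hsub _ hS2) hδD (z := 0) (by omega) (by omega) (by omega) (by omega)
  have hends : #(ends (S ∪ J0)) + 1 ≤ #D := by
    have hcx : c.x ∉ ends (J'.erase c ∪ J0) ∧ c.y ∉ ends (J'.erase c ∪ J0) := by
      have hsubE : ends (J' ∪ J0) ⊆ ends (J'.erase c ∪ J0) ∪ {c.x, c.y} := by
        intro v hv
        simp only [ends, Finset.mem_union, Finset.mem_image, Finset.mem_erase, Finset.mem_insert,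
          Finset.mem_singleton] at hv ⊢
        rcases hv with ⟨g, hg, rfl⟩ | ⟨g, hg, rfl⟩ <;> by_cases hgc : g = c
        · subst hgc; tauto
        · rcases hg with hg | hg
          · exact Or.inl (Or.inl ⟨g, Or.inl ⟨hgc, hg⟩, rfl⟩)
          · exact Or.inl (Or.inl ⟨g, Or.inr hg, rfl⟩)
        · subst hgc; tauto
        · rcases hg with hg | hg
          · exact Or.inl (Or.inr ⟨g, Or.inl ⟨hgc, hg⟩, rfl⟩)
          · exact Or.inl (Or.inr ⟨g, Or.inr hg, rfl⟩)
      have hle : #(ends (J'.erase c ∪ J0)) ≤ 2 * r := by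
        refine (card_ends_le _).trans ?_
        rw [hcardU _ ((Finset.erase_subset _ _).trans hJ'J), Finset.card_erase_of_mem hc]
        omega
      have hcc := (Finset.card_le_card hsubE)
      constructor
      · intro h
        have : ends (J'.erase c ∪ J0) ∪ {c.x, c.y} ⊆ insert c.y (ends (J'.erase c ∪ J0)) := by
          intro v; simp; grind
        have := (Finset.card_le_card this).trans (Finset.card_insert_le _ _)
        omega
      · intro h
        have : ends (J'.erase c ∪ J0) ∪ {c.x, c.y} ⊆ insert c.x (ends (J'.erase c ∪ J0)) := by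
          intro v; simp; grind
        have := (Finset.card_le_card this).trans (Finset.card_insert_le _ _)
        omega
    obtain ⟨v, hvD, hvf⟩ : ∃ v, (v = c.x ∨ v = c.y) ∧ v ≠ f.x ∧ v ≠ f.y := by
      by_contra h
      push Not at h
      have hh1 := h c.x (Or.inl rfl)
      have hh2 := h c.y (Or.inr rfl)
      have hcne := (hsub J' hJ'J).x_ne_y (Finset.mem_union_left _ hc)
      have := hsys.pair_inj hfm (Finset.mem_union_left _ (hJ'J hc))
        (show s(f.x, f.y) = s(c.x, c.y) by rw [Sym2.eq_iff]; grind)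
      exact hfJ' (this ▸ hc)
    have hvnot : v ∉ ends (S ∪ J0) := by
      intro h
      simp only [ends, hSdef, Finset.mem_union, Finset.mem_image, Finset.mem_insert] at h
      rcases h with ⟨g, hg, rfl⟩ | ⟨g, hg, rfl⟩ <;> rcases hg with (rfl | hg) | hg
      · exact hvf.1 rfl
      · rcases hvD with e | e
        · exact hcx.1 (e ▸ Finset.mem_union_left _ (Finset.mem_image_of_mem _
            (Finset.mem_union_left _ hg)))
        · exact hcx.2 (e ▸ Finset.mem_union_left _ (Finset.mem_image_of_mem _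
            (Finset.mem_union_left _ hg)))
      · rcases hvD with e | e
        · exact hcx.1 (e ▸ Finset.mem_union_left _ (Finset.mem_image_of_mem _
            (Finset.mem_union_right _ hg)))
        · exact hcx.2 (e ▸ Finset.mem_union_left _ (Finset.mem_image_of_mem _
            (Finset.mem_union_right _ hg)))
      · exact hvf.2 rfl
      · rcases hvD with e | e
        · exact hcx.1 (e ▸ Finset.mem_union_right _ (Finset.mem_image_of_mem _
            (Finset.mem_union_left _ hg)))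
        · exact hcx.2 (e ▸ Finset.mem_union_right _ (Finset.mem_image_of_mem _
            (Finset.mem_union_left _ hg)))
      · rcases hvD with e | e
        · exact hcx.1 (e ▸ Finset.mem_union_right _ (Finset.mem_image_of_mem _
            (Finset.mem_union_right _ hg)))
        · exact hcx.2 (e ▸ Finset.mem_union_right _ (Finset.mem_image_of_mem _
            (Finset.mem_union_right _ hg)))
    have hvD' : v ∈ D := by
      rcases hvD with rfl | rfl
      · exact hsys.ends_subset (Finset.mem_union_left _ (Finset.mem_image_of_mem _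
          (Finset.mem_union_left _ (hJ'J hc))))
      · exact hsys.ends_subset (Finset.mem_union_right _ (Finset.mem_image_of_mem _
          (Finset.mem_union_left _ (hJ'J hc))))
    exact Finset.card_lt_card ((Finset.ssubset_iff_of_subset (hsub _ hS2).ends_subset).2
      ⟨v, hvD', hvnot⟩)
  exact close_with (hsub _ hS2) hδD (z := 1) hends (by omega) (by omega) (by omega)

theorem cluster_two {m n : ℕ} (hn : 3 ≤ n)
    (hα : ∀ I : Finset V, G.IsIndepSet (I : Set V) → #I < n) (hF2 : F2 G m n)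
    (hdeg : ∀ v, m - 1 ≤ G.degree v) (D : Finset V) (a b : V) (ha : a ∈ D) (hb : b ∈ D)
    (hab : a ≠ b) (X : List V) (hX : X.Nodup) (hoff : ∀ x ∈ X, x ∉ D)
    (hch : (a :: (X ++ [b])).IsChain G.Adj) (h3 : 3 ≤ X.length)
    (hk : #D + X.length + 1 ≤ m) (hnk : n + 1 ≤ #D) (h2k : m ≤ 2 * #D)
    (hδ : ∀ v ∈ D, m ≤ 2 * #(D.filter (G.Adj v)) + 2) (h9 : 9 ≤ #D) : HasCycle G m := by
  classical
  obtain ⟨δ, h2δ, hδD⟩ := exists_half (G := G) (m := m) (c := 2) (D := D) hδ
  set g0 := X.length with hg0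
  set t := m - #D - g0 with ht
  have hZX : #(D ∪ X.toFinset) = #D + g0 := by
    rw [Finset.card_union_of_disjoint, List.toFinset_card_of_nodup hX]
    rw [Finset.disjoint_right]
    intro v hv
    exact hoff v (List.mem_toFinset.1 hv)
  by_cases ht1 : t = 1
  · obtain ⟨U, hUD, hUc⟩ := Finset.exists_subset_card_eq (s := D.erase a) (n := n)
      (by rw [Finset.card_erase_of_mem ha]; omega)
    obtain ⟨x, hx, y, hy, hxy, w, hw, hxw, hyw⟩ := hF2 (D ∪ X.toFinset) (by omega) U
      ((hUD.trans (Finset.erase_subset _ _)).trans Finset.subset_union_left) hUc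
    have hxa := Finset.mem_erase.1 (hUD hx)
    have hya := Finset.mem_erase.1 (hUD hy)
    simp only [Finset.mem_union, List.mem_toFinset, not_or] at hw
    have hok : OKPair a b x y := ⟨hxy, by simp only [ne_eq, Sym2.eq_iff]; grind⟩
    obtain ⟨σ, J, hJ, hJc, hJs⟩ := pair_sys (G := G) ha hb hab hxa.2 hya.2 hok hX (Q := [w])
      (by simp) hoff (by simpa using hw.1) (fun v hv h => by simp at h; exact hw.2 (h ▸ hv)) hch
      (by simp [hxw, hyw.symm])
    have := card_ends_le J
    simp at hJs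
    exact close_with hJ hδD (z := 0) (by omega) (by omega) (by omega) (by omega)
  set e0 : Link V := ⟨a, b, X⟩ with he0
  obtain ⟨σ, J, J0, w, hsys, hdis, hJ0, hJ0s, hJW, hgood, hsum⟩ :=
    exists_links (G := G) (n := n) (t := t) hα D {e0} (by simp)
      (by simp only [Finset.mem_singleton, forall_eq, he0]; exact ⟨ha, hb, hab, hX, hoff, hch⟩)
      (by simp; omega)
      (fun x hx => by
        have h := row_bound (X := ({e0} : Finset (Link V)).biUnion (fun f => f.M.toFinset)) hdeg hx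
        simp [he0, List.toFinset_card_of_nodup hX] at h ⊢
        omega)
  simp only [Finset.card_singleton] at hJ0
  simp only [Finset.sum_singleton, he0] at hJ0s
  have hΓ : t ≤ ∑ e ∈ J, e.M.length := by
    have : ∑ e ∈ J, w e ≤ ∑ e ∈ J, 2 * e.M.length :=
      Finset.sum_le_sum fun e he => (hgood e he).2.1
    rw [← Finset.mul_sum] at this
    omega
  have hsub : ∀ J' ⊆ J, LinkSys G D σ (J' ∪ J0) := fun J' h =>
    hsys.mono (Finset.union_subset_union_left h)
  have hcardU : ∀ J' ⊆ J, #(J' ∪ J0) = #J' + 1 := fun J' h => by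
    rw [Finset.card_union_of_disjoint (hdis.mono_left h), hJ0]
  have hsumU : ∀ J' ⊆ J, ∑ e ∈ J' ∪ J0, e.M.length = (∑ e ∈ J', e.M.length) + g0 := fun J' h => by
    rw [Finset.sum_union (hdis.mono_left h), hJ0s]
  by_cases hbig : ∃ e ∈ J, t ≤ e.M.length
  · obtain ⟨e, he, hte⟩ := hbig
    have hxD := (hsys.mono (Finset.subset_union_left)).ends_subset
      (Finset.mem_union_left _ (Finset.mem_image_of_mem Link.x he))
    have hyD := (hsys.mono (Finset.subset_union_left)).ends_subset
      (Finset.mem_union_right _ (Finset.mem_image_of_mem Link.y he))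
    obtain ⟨e', he'⟩ := Finset.card_eq_one.1 hJ0
    have he'm : e' ∈ J ∪ J0 := by simp [he']
    have hmemW : ∀ v ∈ e.M, v ∉ X ∧ ∃ u ∈ D, G.Adj v u := fun v hv => by
      have := hJW e he v hv
      simp [outNbrs, he0] at this
      obtain ⟨-, h1, u, hu, huv⟩ := this
      exact ⟨h1, u, hu, huv.symm⟩
    -- either the pair of `e` differs from the forced one, or the ends coincide
    have hpair : s(e.x, e.y) ≠ s(e'.x, e'.y) := fun h => by
      have := hsys.pair_inj (Finset.mem_union_left _ he) he'm h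
      subst this
      exact Finset.disjoint_left.1 hdis he (by simp [he'])
    obtain ⟨Q, x, y, hQl, hQn, hQm, hx, hy, hok, hQc⟩ := shrink (G := G) D e'.x e'.y
      (by omega) e.M e.x e.y hte (hsys.nodup e (Finset.mem_union_left _ he)) hxD hyD
      ⟨hsys.x_ne_y (Finset.mem_union_left _ he), hpair⟩
      (hsys.chain e (Finset.mem_union_left _ he)) (fun v hv => (hmemW v hv).2)
    have hx'D := hsys.ends_subset (Finset.mem_union_left _ (Finset.mem_image_of_mem Link.x he'm))
    have hy'D := hsys.ends_subset (Finset.mem_union_right _ (Finset.mem_image_of_mem Link.y he'm))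
    obtain ⟨σ', J', hJ', hJc, hJs⟩ := pair_sys (G := G) hx'D hy'D (hsys.x_ne_y he'm) hx hy hok
      (hsys.nodup e' he'm) hQn (hsys.off e' he'm)
      (fun v hv => hsys.off e (Finset.mem_union_left _ he) v (hQm v hv))
      (fun v hv hvQ => hsys.disj e' he'm e (Finset.mem_union_left _ he)
        (fun h => hpair (by rw [h])) v hv (hQm v hvQ))
      (hsys.chain e' he'm) hQc
    have := card_ends_le J'
    rw [he', Finset.sum_singleton] at hJ0s
    exact close_with hJ' hδD (z := Q.length - t) (by omega) (by omega) (by omega) (by omega)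
  push Not at hbig
  obtain ⟨J', hJ'J, hJ't, hmin⟩ := exists_minimal_sub J (fun e => e.M.length) hΓ
  set r := #J' with hrdef
  set z := ∑ e ∈ J', e.M.length - t with hz
  have hr : r * (z + 1) ≤ t + z := by
    have : ∑ _e ∈ J', (z + 1) ≤ ∑ e ∈ J', e.M.length :=
      Finset.sum_le_sum fun e he => by have := hmin e he; omega
    simp only [Finset.sum_const, smul_eq_mul] at this
    rw [hrdef]
    omega
  have hr2 : 2 ≤ r := by
    by_contra h
    rcases Nat.lt_or_ge (#J') 1 with h0 | h0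
    · rw [Finset.card_eq_zero.1 (show #J' = 0 by omega)] at hJ't
      simp at hJ't; omega
    · obtain ⟨e, he⟩ := Finset.card_eq_one.1 (show #J' = 1 by omega)
      rw [he, Finset.sum_singleton] at hJ't
      have := hbig e (hJ'J (by simp [he]))
      omega
  have := card_ends_le J'
  have hU1 := card_ends_le (J' ∪ J0)
  rw [hcardU J' hJ'J] at hU1
  obtain ⟨hrz, hez⟩ := arith_rz hr hr2
  by_cases hdrop : g0 ≤ z
  · have := hez (by omega)
    exact close_with (hsys.mono ((hJ'J.trans Finset.subset_union_left))) hδD (z := z - g0)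
      (by omega) (by omega) (by omega) (by omega)
  push Not at hdrop
  have hsumJ' := hsumU J' hJ'J
  have hcJ' := hcardU J' hJ'J
  by_cases hroom : #(ends (J' ∪ J0)) + z ≤ #D
  · exact close_with (hsub J' hJ'J) hδD (z := z) hroom (by omega) (by omega) (by omega)
  push Not at hroom
  have hDle := Finset.card_le_card (hsub J' hJ'J).ends_subset
  have hz1 : z = 1 := by
    by_contra hne
    rcases Nat.lt_or_ge z 3 with h | h
    · have : z = 2 := by omega
      rw [this] at hr
      omega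
    · have := hez (by omega)
      omega
  rw [hz1] at hr
  exact fallback hsys hdis hJ0 (hJ0s.trans rfl) hgood hsum hbig hJ'J (g0 := g0) (t := t)
    (by omega) (by omega) hδD (by omega) h9 (fun e he => by have := hmin e he; omega)
    (by omega) (by omega) (by omega)

end nbrs

end Vale.Agent.P048.Close
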