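import Vale.Agent.P048.Close.Basic

/-!
A cyclic order through prescribed pairs, and substitution of paths for the pairs.
-/

namespace Vale.Agent.P048.Close

open SimpleGraph

variable {V : Type*} [DecidableEq V]

/-- The number of neighbours of `v` in `S`. -/
def degIn (G : SimpleGraph V) [DecidableRel G.Adj] (S : Finset V) (v : V) : ℕ :=
  (S.filter (G.Adj v)).card

/-- `f` enumerates `S` on `[0, n)`. -/
structure IsEnum (S : Finset V) (n : ℕ) (f : ℕ → V) : Prop where
  inj : Set.InjOn f (Set.Iio n)
  img : (Finset.range n).image f = S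

/-- The cyclically consecutive pair at position `i`. -/
def pairAt (f : ℕ → V) (n i : ℕ) : Sym2 V := s(f i, f ((i + 1) % n))

/-- All pairs of `P` are consecutive. -/
def Keeps (P : Finset (Sym2 V)) (f : ℕ → V) (n : ℕ) : Prop :=
  ∀ e ∈ P, ∃ i < n, pairAt f n i = e

theorem IsEnum.rot {S : Finset V} {n : ℕ} {f : ℕ → V} (h : IsEnum S n f) (k : ℕ) :
    IsEnum S n (fun i => f ((i + k) % n)) := by
  rcases Nat.eq_zero_or_pos n with rfl | hn
  · exact ⟨fun a ha => absurd ha (by simp), by simpa using h.img⟩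
  have hinj : Set.InjOn (fun i => f ((i + k) % n)) (Set.Iio n) := by
    intro a ha b hb hab
    simp only [Set.mem_Iio] at ha hb
    have := h.inj (Nat.mod_lt _ hn) (Nat.mod_lt _ hn) hab
    have e : a % n = b % n := Nat.ModEq.add_right_cancel' k this
    rwa [Nat.mod_eq_of_lt ha, Nat.mod_eq_of_lt hb] at e
  refine ⟨hinj, Finset.eq_of_subset_of_card_le ?_ ?_⟩
  · intro v hv
    obtain ⟨i, -, rfl⟩ := Finset.mem_image.1 hv
    rw [← h.img]
    exact Finset.mem_image_of_mem f (Finset.mem_range.2 (Nat.mod_lt _ hn))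
  · rw [← h.img, Finset.card_image_of_injOn (by simpa using h.inj),
      Finset.card_image_of_injOn (by simpa using hinj)]

theorem pairAt_rot (f : ℕ → V) (n k i : ℕ) :
    pairAt (fun i => f ((i + k) % n)) n i = pairAt f n ((i + k) % n) := by
  simp only [pairAt]
  congr 2
  rw [Nat.mod_add_mod, Nat.mod_add_mod]
  congr 1
  omega

theorem Keeps.rot {P : Finset (Sym2 V)} {f : ℕ → V} {n : ℕ} (h : Keeps P f n) (k : ℕ) :
    Keeps P (fun i => f ((i + k) % n)) n := by
  intro e he
  obtain ⟨i, hi, rfl⟩ := h e he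
  have hn : 0 < n := by omega
  refine ⟨(i + (n - k % n)) % n, Nat.mod_lt _ hn, ?_⟩
  rw [pairAt_rot]
  congr 1
  have h1 := Nat.mod_lt k hn
  conv_lhs => rw [Nat.mod_add_mod, Nat.add_mod]
  rw [show (i + (n - k % n)) % n = ((i + (n - k % n)) % n) from rfl]
  rw [← Nat.add_mod, show i + (n - k % n) + k = i + n * (k / n + 1) by
    have := Nat.mod_add_div k n
    rw [Nat.mul_add]; omega]
  rw [Nat.add_mul_mod_self_left, Nat.mod_eq_of_lt hi]

theorem succ_mod {i n : ℕ} (h : i < n) :
    (i + 1) % n = if i + 1 = n then 0 else i + 1 := by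
  split_ifs with h1
  · rw [h1, Nat.mod_self]
  · exact Nat.mod_eq_of_lt (by omega)

variable {G : SimpleGraph V} [DecidableRel G.Adj]

/-- The allowed steps. -/
def StepOK (G : SimpleGraph V) (P T : Finset (Sym2 V)) (e : Sym2 V) : Prop :=
  e ∈ G.edgeSet ∨ e ∈ P ∨ e ∈ T

theorem posa_step {S : Finset V} {n : ℕ} (hn : 3 ≤ n) {P T : Finset (Sym2 V)}
    (hdeg : ∀ v ∈ S, n + P.card ≤ 2 * degIn G S v) {e0 : Sym2 V} {f : ℕ → V}
    (hf : IsEnum S n f) (hk : Keeps P f n) (hok : ∀ i < n, StepOK G P (insert e0 T) (pairAt f n i)) :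
    ∃ g, IsEnum S n g ∧ Keeps P g n ∧ ∀ i < n, StepOK G P T (pairAt g n i) := by
  classical
  by_cases hall : ∀ i < n, StepOK G P T (pairAt f n i)
  · exact ⟨f, hf, hk, hall⟩
  push Not at hall
  obtain ⟨i0, hi0, hbad0⟩ := hall
  let f1 : ℕ → V := fun i => f ((i + (i0 + 1)) % n)
  have hf1 : IsEnum S n f1 := hf.rot _
  have hk1 : Keeps P f1 n := hk.rot _
  have hok1 : ∀ i < n, StepOK G P (insert e0 T) (pairAt f1 n i) := fun i hi => by
    rw [pairAt_rot]; exact hok _ (Nat.mod_lt _ (by omega))
  have hlastp : pairAt f1 n (n - 1) = pairAt f n i0 := by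
    rw [pairAt_rot]
    congr 1
    rw [show n - 1 + (i0 + 1) = i0 + n by omega, Nat.add_mod_right, Nat.mod_eq_of_lt hi0]
  have he0 : pairAt f1 n (n - 1) = e0 := by
    rw [hlastp]
    rcases hok i0 hi0 with h | h | h
    · exact absurd (Or.inl h) hbad0
    · exact absurd (Or.inr (Or.inl h)) hbad0
    · rcases Finset.mem_insert.1 h with h | h
      · exact h
      · exact absurd (Or.inr (Or.inr h)) hbad0
  have hbad : ¬ StepOK G P T (pairAt f1 n (n - 1)) := hlastp ▸ hbad0
  have hxy : pairAt f1 n (n - 1) = s(f1 (n - 1), f1 0) := by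
    simp [pairAt, show n - 1 + 1 = n by omega]
  have hnadj : ¬ G.Adj (f1 (n - 1)) (f1 0) := fun h =>
    hbad (Or.inl (by rw [hxy]; exact h))
  have huniq : ∀ i < n, ∀ j < n, pairAt f1 n i = pairAt f1 n j → i = j := by
    intro i hi j hj h
    simp only [pairAt, Sym2.eq_iff, succ_mod hi, succ_mod hj] at h
    rcases h with ⟨a, -⟩ | ⟨a, b⟩
    · exact hf1.inj hi hj a
    · have a' := hf1.inj hi (by simp only [Set.mem_Iio]; split_ifs <;> omega) a
      have b' := hf1.inj (by simp only [Set.mem_Iio]; split_ifs <;> omega) hj b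
      revert a' b'
      split_ifs <;> omega
  let I := (Finset.range (n - 1)).filter (fun i => G.Adj (f1 0) (f1 (i + 1)))
  let J := (Finset.range (n - 1)).filter (fun i => G.Adj (f1 (n - 1)) (f1 i))
  have hmem : ∀ i < n, f1 i ∈ S := fun i hi => by
    rw [← hf1.img]; exact Finset.mem_image_of_mem f1 (Finset.mem_range.2 hi)
  have hI : degIn G S (f1 0) ≤ I.card := by
    refine le_trans ?_ (Finset.card_image_le (f := fun i => f1 (i + 1)))
    apply Finset.card_le_card
    intro v hv
    rw [Finset.mem_filter, ← hf1.img] at hv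
    obtain ⟨hv, hadj⟩ := hv
    obtain ⟨i, hi, rfl⟩ := Finset.mem_image.1 hv
    rw [Finset.mem_range] at hi
    have : i ≠ 0 := by rintro rfl; exact hadj.ne rfl
    refine Finset.mem_image.2 ⟨i - 1, ?_, by rw [show i - 1 + 1 = i by omega]⟩
    simp only [I, Finset.mem_filter, Finset.mem_range]
    exact ⟨by omega, by rwa [show i - 1 + 1 = i by omega]⟩
  have hJ : degIn G S (f1 (n - 1)) ≤ J.card := by
    refine le_trans ?_ (Finset.card_image_le (f := f1))
    apply Finset.card_le_card
    intro v hv
    rw [Finset.mem_filter, ← hf1.img] at hv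
    obtain ⟨hv, hadj⟩ := hv
    obtain ⟨i, hi, rfl⟩ := Finset.mem_image.1 hv
    rw [Finset.mem_range] at hi
    have : i ≠ n - 1 := by rintro rfl; exact hadj.ne rfl
    exact Finset.mem_image.2 ⟨i, by simp [J, hadj]; omega, rfl⟩
  have h0 := hdeg _ (hmem 0 (by omega))
  have h1 := hdeg _ (hmem (n - 1) (by omega))
  have hu : (I ∪ J).card ≤ n - 1 := by
    refine le_trans (Finset.card_le_card (t := Finset.range (n - 1)) ?_) (by simp)
    exact Finset.union_subset (Finset.filter_subset _ _) (Finset.filter_subset _ _)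
  have := Finset.card_union_add_card_inter I J
  obtain ⟨i, hi, hiP⟩ : ∃ i ∈ I ∩ J, pairAt f1 n i ∉ P := by
    by_contra h
    push Not at h
    have := Finset.card_le_card_of_injOn (pairAt f1 n) (fun i hi => h i hi) (fun a ha b hb hab => by
      simp only [I, J, Finset.coe_inter, Finset.coe_filter, Finset.mem_range, Set.mem_inter_iff,
        Set.mem_ofPred_eq] at ha hb
      exact huniq a (by omega) b (by omega) hab)
    omega
  simp only [I, J, Finset.mem_inter, Finset.mem_filter, Finset.mem_range] at hi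
  obtain ⟨⟨hin, hadj0⟩, -, hadj1⟩ := hi
  let g : ℕ → V := fun j => if j ≤ i then f1 j else f1 (n + i - j)
  have hginj : Set.InjOn g (Set.Iio n) := by
    intro a ha b hb hab
    simp only [Set.mem_Iio] at ha hb
    simp only [g] at hab
    split_ifs at hab
    all_goals
      have := hf1.inj (by simp only [Set.mem_Iio]; omega) (by simp only [Set.mem_Iio]; omega) hab
      omega
  have hg : IsEnum S n g := by
    refine ⟨hginj, Finset.eq_of_subset_of_card_le ?_ ?_⟩
    · intro v hv
      obtain ⟨j, hj, rfl⟩ := Finset.mem_image.1 hv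
      rw [Finset.mem_range] at hj
      simp only [g]
      split_ifs <;> exact hmem _ (by omega)
    · rw [← hf1.img, Finset.card_image_of_injOn (by simpa using hf1.inj),
        Finset.card_image_of_injOn (by simpa using hginj)]
  have hpair : ∀ j, j + 1 < n → j ≠ i →
      pairAt g n j = pairAt f1 n (if j < i then j else n + i - j - 1) := by
    intro j hj hji
    simp only [pairAt, g, succ_mod (show j < n by omega), if_neg (show j + 1 ≠ n by omega)]
    split_ifs with a b c <;> try omega
    · rw [Nat.mod_eq_of_lt (by omega)]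
    · rw [Sym2.eq_swap, show n + i - (j + 1) = n + i - j - 1 by omega,
        show (n + i - j - 1 + 1) % n = n + i - j by
          rw [Nat.mod_eq_of_lt (by omega)]; omega]
  refine ⟨g, hg, ?_, ?_⟩
  · intro e he
    obtain ⟨p, hp, rfl⟩ := hk1 e he
    have hp1 : p ≠ n - 1 := fun h => hbad (Or.inr (Or.inl (h ▸ he)))
    have hp2 : p ≠ i := fun h => hiP (h ▸ he)
    by_cases hpi : p < i
    · refine ⟨p, hp, ?_⟩
      rw [hpair p (by omega) (by omega), if_pos hpi]
    · refine ⟨n + i - p - 1, by omega, ?_⟩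
      rw [hpair _ (by omega) (by omega), if_neg (by omega)]
      congr 1
      omega
  · intro j hj
    by_cases hji : j = i
    · subst hji
      left
      simp only [pairAt, g, succ_mod hj, if_neg (show j + 1 ≠ n by omega), le_refl, if_true,
        if_neg (show ¬ j + 1 ≤ j by omega), show n + j - (j + 1) = n - 1 by omega]
      exact hadj1.symm
    by_cases hjn : j + 1 = n
    · left
      simp only [pairAt, g, succ_mod hj, if_pos hjn, Nat.zero_le, if_true,
        if_neg (show ¬ j ≤ i by omega), show n + i - j = i + 1 by omega]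
      exact hadj0.symm
    rw [hpair j (by omega) hji]
    set p := if j < i then j else n + i - j - 1 with hp
    have hpn : p < n - 1 := by rw [hp]; split_ifs <;> omega
    rcases hok1 p (by omega) with h | h | h
    · exact Or.inl h
    · exact Or.inr (Or.inl h)
    · rcases Finset.mem_insert.1 h with h | h
      · have := huniq p (by omega) (n - 1) (by omega) (h.trans he0.symm)
        omega
      · exact Or.inr (Or.inr h)

/-- A cyclic order with all steps adjacent or in `P`, all pairs of `P` consecutive. -/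
theorem posa {S : Finset V} {n : ℕ} (hn : 3 ≤ n) {P : Finset (Sym2 V)}
    (hdeg : ∀ v ∈ S, n + P.card ≤ 2 * degIn G S v) {f : ℕ → V} (hf : IsEnum S n f)
    (hk : Keeps P f n) :
    ∃ g, IsEnum S n g ∧ Keeps P g n ∧ ∀ i < n, StepOK G P ∅ (pairAt g n i) := by
  suffices h : ∀ T : Finset (Sym2 V), ∀ f, IsEnum S n f → Keeps P f n →
      (∀ i < n, StepOK G P T (pairAt f n i)) →
      ∃ g, IsEnum S n g ∧ Keeps P g n ∧ ∀ i < n, StepOK G P ∅ (pairAt g n i) from
    h ((Finset.range n).image (pairAt f n)) f hf hk fun i hi =>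
      Or.inr (Or.inr (Finset.mem_image_of_mem _ (Finset.mem_range.2 hi)))
  intro T
  induction T using Finset.induction_on with
  | empty => exact fun f h1 h2 h3 => ⟨f, h1, h2, h3⟩
  | insert e0 T _ ih =>
    intro f h1 h2 h3
    obtain ⟨g, g1, g2, g3⟩ := posa_step hn hdeg h1 h2 h3
    exact ih g g1 g2 g3

theorem chain_substitute {R : V → V → Prop} (f : ℕ → V) (M : ℕ → List V) :
    ∀ j, (∀ i < j, (f i :: (M i ++ [f (i + 1)])).IsChain R) →
      ((List.range j).flatMap (fun i => f i :: M i) ++ [f j]).IsChain R := by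
  intro j
  induction j with
  | zero => simp
  | succ j ih =>
    intro h
    have h1 := ih fun i hi => h i (by omega)
    rw [List.range_succ, List.flatMap_append, List.flatMap_singleton, List.append_assoc,
      List.cons_append]
    exact List.isChain_split.2 ⟨h1, h j (by omega)⟩

/-- A link: two ends and an interior. -/
structure Link (V : Type*) where
  /-- first end -/
  x : V
  /-- second end -/
  y : V
  /-- interior -/
  M : List V
deriving DecidableEq

/-- A family of links with disjoint interiors off `D`, in the linear order `σ` of `D`. -/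
structure LinkSys (G : SimpleGraph V) (D : Finset V) (σ : List V) (J : Finset (Link V)) :
    Prop where
  σ_nodup : σ.Nodup
  σ_mem : ∀ v, v ∈ σ ↔ v ∈ D
  infix_ : ∀ e ∈ J, [e.x, e.y] <:+: σ
  x_inj : ∀ e ∈ J, ∀ e' ∈ J, e.x = e'.x → e = e'
  chain : ∀ e ∈ J, (e.x :: (e.M ++ [e.y])).IsChain G.Adj
  nodup : ∀ e ∈ J, e.M.Nodup
  off : ∀ e ∈ J, ∀ w ∈ e.M, w ∉ D
  disj : ∀ e ∈ J, ∀ e' ∈ J, e ≠ e' → ∀ w ∈ e.M, w ∉ e'.M

theorem LinkSys.mono {D : Finset V} {σ : List V} {J J' : Finset (Link V)}
    (h : LinkSys G D σ J) (hs : J' ⊆ J) : LinkSys G D σ J' :=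
  ⟨h.σ_nodup, h.σ_mem, fun e he => h.infix_ e (hs he),
    fun e he e' he' => h.x_inj e (hs he) e' (hs he'), fun e he => h.chain e (hs he),
    fun e he => h.nodup e (hs he), fun e he => h.off e (hs he),
    fun e he e' he' => h.disj e (hs he) e' (hs he')⟩

theorem succ_of_infix {l : List V} {x y : V} (h : [x, y] <:+: l) :
    ∃ i, ∃ hi : i + 1 < l.length, l[i] = x ∧ l[i + 1] = y := by
  obtain ⟨s, t, rfl⟩ := h
  refine ⟨s.length, by simp, ?_, ?_⟩ <;> simp [List.getElem_append]

theorem filter_infix {l : List V} {x y : V} (h : [x, y] <:+: l) (p : V → Bool)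
    (hx : p x) (hy : p y) : [x, y] <:+: l.filter p := by
  obtain ⟨s, t, rfl⟩ := h
  exact ⟨s.filter p, t.filter p, by simp [List.filter_append, hx, hy]⟩

/-- The ends of the links. -/
def ends (J : Finset (Link V)) : Finset V := J.image Link.x ∪ J.image Link.y

theorem assemble {D : Finset V} {σ : List V} {J : Finset (Link V)} {δ z m : ℕ}
    (hJ : LinkSys G D σ J) (hδ : ∀ v ∈ D, δ ≤ degIn G D v)
    (hz : (ends J).card + z ≤ D.card) (h3 : z + 3 ≤ D.card)
    (hpos : D.card + J.card + z ≤ 2 * δ)
    (hm : m + z = D.card + ∑ e ∈ J, e.M.length) : HasCycle G m := by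
  classical
  have hsub : ends J ⊆ D := by
    intro v hv
    rw [← hJ.σ_mem]
    simp only [ends, Finset.mem_union, Finset.mem_image] at hv
    rcases hv with ⟨e, he, rfl⟩ | ⟨e, he, rfl⟩ <;>
      exact (hJ.infix_ e he).subset (by simp)
  obtain ⟨Z, hZs, hZc⟩ := Finset.exists_subset_card_eq (s := D \ ends J) (n := z) (by
    rw [Finset.card_sdiff_of_subset hsub]; omega)
  set S := D \ Z with hS
  have hZD : Z ⊆ D := hZs.trans Finset.sdiff_subset
  have hScard : S.card = D.card - z := by rw [hS, Finset.card_sdiff_of_subset hZD, hZc]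
  set n := S.card with hn
  set l := σ.filter (fun v => decide (v ∉ Z)) with hl
  have hln : l.Nodup := hJ.σ_nodup.filter _
  have hlmem : ∀ v, v ∈ l ↔ v ∈ S := fun v => by simp [hl, hS, hJ.σ_mem]
  have hllen : l.length = n := by
    rw [← List.toFinset_card_of_nodup hln, hn]
    congr 1
    ext v
    simp [hlmem]
  have hD0 : 0 < l.length := by omega
  let f : ℕ → V := fun i => l.getD i l[0]
  have hfi : ∀ i (hi : i < l.length), f i = l[i] := fun i hi => by simp [f, hi]
  have hf : IsEnum S n f := by
    constructor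
    · intro a ha b hb hab
      simp only [Set.mem_Iio, ← hllen] at ha hb
      rw [hfi a ha, hfi b hb] at hab
      exact hln.getElem_inj_iff.1 hab
    · ext v
      rw [Finset.mem_image, ← hlmem, List.mem_iff_getElem]
      constructor
      · rintro ⟨i, hi, rfl⟩
        rw [Finset.mem_range, ← hllen] at hi
        exact ⟨i, hi, (hfi i hi).symm⟩
      · rintro ⟨i, hi, rfl⟩
        exact ⟨i, by rw [Finset.mem_range, ← hllen]; exact hi, hfi i hi⟩
  have hpos' : ∀ e ∈ J, ∃ i, i + 1 < n ∧ f i = e.x ∧ f (i + 1) = e.y := by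
    intro e he
    have hnot : ∀ v ∈ ends J, v ∉ Z := fun v hv hvZ => (Finset.mem_sdiff.1 (hZs hvZ)).2 hv
    have hx : e.x ∉ Z := hnot _ (Finset.mem_union_left _ (Finset.mem_image_of_mem _ he))
    have hy : e.y ∉ Z := hnot _ (Finset.mem_union_right _ (Finset.mem_image_of_mem _ he))
    obtain ⟨i, hi, e1, e2⟩ := succ_of_infix (filter_infix (hJ.infix_ e he)
      (fun v => decide (v ∉ Z)) (by simpa using hx) (by simpa using hy))
    rw [← hllen]
    exact ⟨i, hi, (hfi i (Nat.lt_of_succ_lt hi)).trans e1, (hfi (i + 1) hi).trans e2⟩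
  set P := J.image (fun e => s(e.x, e.y)) with hP
  have hpe : ∀ e ∈ J, ∀ e' ∈ J, s(e.x, e.y) = s(e'.x, e'.y) → e = e' := by
    intro e he e' he' h
    rw [Sym2.eq_iff] at h
    rcases h with ⟨h1, -⟩ | ⟨h1, h2⟩
    · exact hJ.x_inj e he e' he' h1
    · obtain ⟨i, hi, a1, a2⟩ := hpos' e he
      obtain ⟨j, hj, b1, b2⟩ := hpos' e' he'
      have := hf.inj (show i < n by omega) (show j + 1 < n by omega) (a1.trans (h1.trans b2.symm))
      have := hf.inj (show i + 1 < n by omega) (show j < n by omega) (a2.trans (h2.trans b1.symm))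
      omega
  have hPc : P.card = J.card := Finset.card_image_of_injOn fun e he e' he' h => hpe e he e' he' h
  have hk : Keeps P f n := by
    intro p hp
    obtain ⟨e, he, rfl⟩ := Finset.mem_image.1 hp
    obtain ⟨i, hi, a1, a2⟩ := hpos' e he
    exact ⟨i, by omega, by rw [pairAt, Nat.mod_eq_of_lt hi, a1, a2]⟩
  have hdeg : ∀ v ∈ S, n + P.card ≤ 2 * degIn G S v := by
    intro v hv
    have h1 := hδ v (Finset.mem_sdiff.1 hv).1
    have h2 : degIn G D v ≤ degIn G S v + Z.card := by
      refine le_trans (Finset.card_le_card (t := S.filter (G.Adj v) ∪ Z) ?_)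
        (Finset.card_union_le _ _)
      intro w hw
      simp only [Finset.mem_filter, Finset.mem_union, hS, Finset.mem_sdiff] at hw ⊢
      tauto
    omega
  obtain ⟨g, hg, hgk, hgok⟩ := posa (by omega) hdeg hf hk
  choose π hπn hπ using fun e : J => hgk _ (Finset.mem_image_of_mem _ e.2)
  have hπinj : Function.Injective π := fun e e' h => by
    have := (hπ e).symm.trans ((congrArg (pairAt g n) h).trans (hπ e'))
    exact Subtype.ext (hpe _ e.2 _ e'.2 this)
  let M : ℕ → List V := fun i =>
    if h : ∃ e : J, π e = i then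
      (if g i = h.choose.1.x then h.choose.1.M else h.choose.1.M.reverse)
    else []
  have hM : ∀ e : J, M (π e) = e.1.M ∨ M (π e) = e.1.M.reverse := by
    intro e
    have hex : ∃ e' : J, π e' = π e := ⟨e, rfl⟩
    simp only [M, dif_pos hex, hπinj hex.choose_spec]
    split_ifs <;> simp
  have hMnone : ∀ i, (¬ ∃ e : J, π e = i) → M i = [] := fun i h => dif_neg h
  let f' : ℕ → V := fun i => g (i % n)
  have hstep : ∀ i < n, (f' i :: (M i ++ [f' (i + 1)])).IsChain G.Adj := by
    intro i hi
    simp only [f', Nat.mod_eq_of_lt hi]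
    by_cases h : ∃ e : J, π e = i
    · simp only [M, dif_pos h]
      have hp : pairAt g n i = s(h.choose.1.x, h.choose.1.y) := by
        conv_lhs => rw [← h.choose_spec]
        exact hπ h.choose
      have hc := hJ.chain _ h.choose.2
      simp only [pairAt, Sym2.eq_iff] at hp
      split_ifs with hx
      · rcases hp with ⟨-, e2⟩ | ⟨e1, e2⟩
        · rwa [hx, e2]
        · rw [hx, e2]
          rw [hx] at e1
          rwa [← e1] at hc
      · rcases hp with ⟨e1, -⟩ | ⟨e1, e2⟩
        · exact absurd e1 hx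
        · rw [e1, e2]
          have := (List.isChain_reverse.2 (hc.imp fun a b hab => hab.symm) :
            (h.choose.1.x :: (h.choose.1.M ++ [h.choose.1.y])).reverse.IsChain G.Adj)
          simpa using this
    · rw [hMnone i h, List.nil_append, List.isChain_pair]
      rcases hgok i hi with ha | ha | ha
      · exact ha
      · obtain ⟨e, he, hee⟩ := Finset.mem_image.1 ha
        exfalso
        apply h
        refine ⟨⟨e, he⟩, ?_⟩
        have h2 := (hπ ⟨e, he⟩).trans hee
        by_contra hne
        simp only [pairAt, Sym2.eq_iff, succ_mod (hπn ⟨e, he⟩), succ_mod hi] at h2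
        have hlt := hπn ⟨e, he⟩
        rcases h2 with ⟨a, -⟩ | ⟨a, b⟩
        · exact hne (hg.inj (hπn _) hi a)
        · have a' := hg.inj (hπn _) (by simp only [Set.mem_Iio]; split_ifs <;> omega) a
          have b' := hg.inj (by simp only [Set.mem_Iio]; split_ifs <;> omega) hi b
          revert a' b'
          split_ifs <;> omega
      · simp at ha
  set C := (List.range n).flatMap (fun i => f' i :: M i) with hC
  have hchain := chain_substitute f' M n hstep
  have hf'n : f' n = f' 0 := by simp [f']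
  have hclosed : Closed G.Adj C := by
    rw [List.isChain_append] at hchain
    refine ⟨hchain.1, fun a ha b hb => hchain.2.2 a ha b ?_⟩
    rw [hf'n]
    obtain ⟨n', hn'⟩ : ∃ n', n = n' + 1 := ⟨n - 1, by omega⟩
    rw [hC, hn', List.range_succ_eq_map] at hb
    simpa using hb
  have hgS : ∀ i < n, g i ∈ S := fun i hi => by
    rw [← hg.img]; exact Finset.mem_image_of_mem g (Finset.mem_range.2 hi)
  have hMmem : ∀ i, ∀ w ∈ M i, ∃ e : J, π e = i ∧ w ∈ e.1.M := by
    intro i w hw
    by_cases h : ∃ e : J, π e = i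
    · obtain ⟨e, rfl⟩ := h
      refine ⟨e, rfl, ?_⟩
      rcases hM e with h | h <;> rw [h] at hw <;> simpa using hw
    · rw [hMnone i h] at hw; simp at hw
  have hoff : ∀ i < n, ∀ j, ∀ w ∈ M j, f' i ≠ w := by
    intro i hi j w hw e
    obtain ⟨e', -, he'⟩ := hMmem j w hw
    apply hJ.off _ e'.2 w he'
    rw [← e]
    simp only [f', Nat.mod_eq_of_lt hi]
    exact (Finset.mem_sdiff.1 (hgS i hi)).1
  refine ⟨C, ?_, ?_, hclosed⟩
  · rw [hC, List.length_flatMap]
    have e1 : ((List.range n).map fun i => (f' i :: M i).length).sum =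
        ∑ i ∈ Finset.range n, ((M i).length + 1) := by
      rfl
    rw [e1, Finset.sum_add_distrib, Finset.sum_const, Finset.card_range, smul_eq_mul, mul_one]
    have e2 : ∑ i ∈ Finset.range n, (M i).length = ∑ e ∈ J, e.M.length := by
      rw [← Finset.sum_coe_sort J]
      symm
      refine Finset.sum_bij_ne_zero (fun e _ _ => π e) (fun e _ _ => Finset.mem_range.2 (hπn e))
        (fun e _ _ e' _ _ h => hπinj h) (fun i _ hne => ?_) (fun e _ _ => ?_)
      · by_cases h : ∃ e : J, π e = i
        · obtain ⟨e, rfl⟩ := h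
          refine ⟨e, Finset.mem_univ _, ?_, rfl⟩
          rcases hM e with h | h <;> rw [h] at hne <;> simpa using hne
        · rw [hMnone i h] at hne; simp at hne
      · rcases hM e with h | h <;> simp [h]
    omega
  · rw [hC, List.nodup_flatMap]
    refine ⟨fun i hi => ?_, List.nodup_range.imp_of_mem fun {i j} hi hj hij w hwi hwj => ?_⟩
    · rw [List.mem_range] at hi
      refine List.nodup_cons.2 ⟨fun h => hoff i hi i _ h rfl, ?_⟩
      by_cases h : ∃ e : J, π e = i
      · obtain ⟨e, rfl⟩ := h
        have := hJ.nodup _ e.2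
        rcases hM e with h | h <;> rw [h]
        · exact this
        · exact List.nodup_reverse.2 this
      · rw [hMnone i h]; exact List.nodup_nil
    · rw [List.mem_range] at hi hj
      rcases List.mem_cons.1 hwi with rfl | hwi <;> rcases List.mem_cons.1 hwj with h | hwj
      · simp only [f', Nat.mod_eq_of_lt hi, Nat.mod_eq_of_lt hj] at h
        exact hij (hg.inj hi hj h)
      · exact hoff i hi j _ hwj rfl
      · exact hoff j hj i _ hwi h.symm
      · obtain ⟨e, rfl, he⟩ := hMmem i w hwi
        obtain ⟨e', rfl, he'⟩ := hMmem j w hwj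
        exact hJ.disj _ e.2 _ e'.2 (fun h => hij (congrArg π (Subtype.ext h))) w he he'

end Vale.Agent.P048.Close
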